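import Vale.Agent.P284.H221.C6

/-!
# P284 (helper573): groups all of whose finite dimensional real representations have finite range
(after helper221's C6)
-/

noncomputable section

namespace Vale.Agent.P284.H573.DK

open Vale.Agent.P272.K Vale.Agent.P284.H894.V Vale.Agent.P284.H894.G

/-- every finite dimensional real representation has finite range -/
def FinRep (K : Type) [Group K] : Prop :=
  ∀ (V : Type) [AddCommGroup V] [Module ℝ V] [FiniteDimensional ℝ V] (ρ : K →* (V →ₗ[ℝ] V)),
    (Set.range ρ).Finite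

variable {K : Type} [Group K]

theorem finRep_of (hfg : Group.FG K) (hF : Folner K) (hnv : ¬ VirtIndicable K) : FinRep K :=
  fun _ _ _ _ ρ => H221.finite_range hfg hF hnv ρ

/-- a subgroup of finite index acts trivially -/
theorem exists_trivialF (hfr : FinRep K) {V : Type}
    [AddCommGroup V] [Module ℝ V] [FiniteDimensional ℝ V] (ρ : K →* (V →ₗ[ℝ] V)) :
    ∃ K' : Subgroup K, K'.FiniteIndex ∧ K'.Normal ∧ ∀ k ∈ K', ρ k = 1 := by
  have hfin : Finite (Set.range ρ) := hfr V ρ
  refine ⟨ρ.ker, ?_, inferInstance, fun k hk => hk⟩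
  have : Finite (K ⧸ ρ.ker) := by
    refine Finite.of_injective (β := Set.range ρ)
      (fun x => Quotient.liftOn' x (fun k => (⟨ρ k, k, rfl⟩ : Set.range ρ)) ?_) ?_
    · intro a b hab
      have h1 : a⁻¹ * b ∈ ρ.ker := QuotientGroup.leftRel_apply.1 hab
      refine Subtype.ext ?_
      show ρ a = ρ b
      have h2 : ρ (a⁻¹ * b) = 1 := h1
      calc ρ a = ρ a * ρ (a⁻¹ * b) := by rw [h2, mul_one]
        _ = ρ b := by rw [← map_mul, mul_inv_cancel_left]
    · intro x y
      induction x using QuotientGroup.induction_on with | _ a =>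
      induction y using QuotientGroup.induction_on with | _ b =>
      intro h
      have h1 : ρ a = ρ b := congrArg Subtype.val h
      refine QuotientGroup.eq.2 ?_
      show ρ (a⁻¹ * b) = 1
      calc ρ (a⁻¹ * b) = ρ a⁻¹ * ρ b := map_mul _ _ _
        _ = ρ a⁻¹ * ρ a := by rw [h1]
        _ = 1 := by rw [← map_mul, inv_mul_cancel, map_one]
  exact Subgroup.finiteIndex_of_finite_quotient

/-- unbundled version: linear maps `T k` of a real vector space `W`, multiplicative in `k`, which
preserve a finite dimensional subspace `V` -/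
theorem exists_trivial_onF (hfr : FinRep K) {W : Type*}
    [AddCommGroup W] [Module ℝ W] (T : K → W → W) (V : Submodule ℝ W) (hV : FiniteDimensional ℝ V)
    (hmap : ∀ k, ∀ v ∈ V, T k v ∈ V) (hadd : ∀ k, ∀ v ∈ V, ∀ v' ∈ V, T k (v + v') = T k v + T k v')
    (hsmul : ∀ k, ∀ (c : ℝ), ∀ v ∈ V, T k (c • v) = c • T k v) (hone : ∀ v ∈ V, T 1 v = v)
    (hmul : ∀ k k', ∀ v ∈ V, T (k * k') v = T k (T k' v)) :
    ∃ K' : Subgroup K, K'.FiniteIndex ∧ K'.Normal ∧ ∀ k ∈ K', ∀ v ∈ V, T k v = v := by
  classical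
  -- transport to `Fin d → ℝ`
  let d := Module.finrank ℝ V
  let b : V ≃ₗ[ℝ] (Fin d → ℝ) := (Module.finBasis ℝ V).equivFun
  let τ : K → (V →ₗ[ℝ] V) := fun k =>
    { toFun := fun v => ⟨T k v, hmap k v v.2⟩
      map_add' := fun v v' => Subtype.ext (hadd k v v.2 v' v'.2)
      map_smul' := fun c v => Subtype.ext (hsmul k c v v.2) }
  let ρ : K →* ((Fin d → ℝ) →ₗ[ℝ] (Fin d → ℝ)) :=
    { toFun := fun k => b.toLinearMap ∘ₗ τ k ∘ₗ b.symm.toLinearMap
      map_one' := by
        refine LinearMap.ext fun x => ?_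
        show b (τ 1 (b.symm x)) = x
        have h1 : τ 1 (b.symm x) = b.symm x := Subtype.ext (hone _ (b.symm x).2)
        rw [h1, LinearEquiv.apply_symm_apply]
      map_mul' := fun k k' => by
        refine LinearMap.ext fun x => ?_
        show b (τ (k * k') (b.symm x)) = b (τ k (b.symm (b (τ k' (b.symm x)))))
        rw [LinearEquiv.symm_apply_apply]
        congr 1
        exact Subtype.ext (hmul k k' _ (b.symm x).2) }
  obtain ⟨K', h1, h2, h3⟩ := exists_trivialF hfr ρ
  refine ⟨K', h1, h2, fun k hk v hv => ?_⟩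
  have h4 : ρ k (b ⟨v, hv⟩) = b ⟨v, hv⟩ := by rw [h3 k hk]; rfl
  have h5 : b (τ k (b.symm (b ⟨v, hv⟩))) = b ⟨v, hv⟩ := h4
  rw [LinearEquiv.symm_apply_apply] at h5
  exact congrArg Subtype.val (b.injective h5)


end Vale.Agent.P284.H573.DK
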