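import Vale.Agent.P284.H573.DK.Main
import Vale.Agent.P284.H573.HNF
import Vale.Agent.P284.H885.DKS

/-!
# P284 (helper573), piece (C2) of [C]: D_K on a complex manifold, in the form of helper885's `DKMStmt`
-/

open scoped Topology ContDiff Manifold
open Filter Set Metric

set_option linter.unusedSectionVars false

noncomputable section

namespace Vale.Agent.P284.H573.DK

open Vale.Agent.P272.K Vale.Agent.P284.H212 Vale.Agent.P284.H894.G Vale.Agent.P284.H894.V
open Vale.Agent.P281.H64.Thin (IsThinSet)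
open Vale.Agent.P284.H885.DK (AnM dM DKMStmt)

section
variable {d : ℕ} {M : Type} [TopologicalSpace M] [ChartedSpace (Cm d) M]
  [IsManifold 𝓘(ℂ, Cm d) ω M] {V : Type} [NormedAddCommGroup V] [NormedSpace ℂ V] [CompleteSpace V]

lemma hol_of_anM {f : M → V} {x : M} (h : AnM d f x) : Hol d f x :=
  (hol_iff (chart_mem_atlas _ _) (mem_chart_source _ _)).2 h

lemma Hol.anM {f : M → V} {x : M} (h : Hol d f x) : AnM d f x :=
  (hol_iff (chart_mem_atlas _ _) (mem_chart_source _ _)).1 h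

lemma Hol.hasFDerivAt {f : M → V} {y : M} (h : Hol d f y) {e : OpenPartialHomeomorph M (Cm d)}
    (he : e ∈ atlas (Cm d) M) (hy : y ∈ e.source) :
    HasFDerivAt (fun z => f (e.symm z)) (fderiv ℂ (fun z => f (e.symm z)) (e y)) (e y) :=
  ((hol_iff he hy).1 h).differentiableAt.hasFDerivAt

/-- the coordinate change is analytic -/
lemma trans_an {e e' : OpenPartialHomeomorph M (Cm d)} (he : e ∈ atlas (Cm d) M)
    (he' : e' ∈ atlas (Cm d) M) {y : M} (hy : y ∈ e.source) (hy' : y ∈ e'.source) :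
    AnalyticAt ℂ (fun z => e' (e.symm z)) (e y) := by
  have h1 : Hol d e' y := contMDiffAt_of_mem_maximalAtlas (IsManifold.subset_maximalAtlas he') hy'
  exact (hol_iff he hy).1 h1

/-- the derivative in another chart -/
lemma fderiv_chart {f : M → V} {y : M} (h : Hol d f y) {e e' : OpenPartialHomeomorph M (Cm d)}
    (he : e ∈ atlas (Cm d) M) (he' : e' ∈ atlas (Cm d) M) (hy : y ∈ e.source)
    (hy' : y ∈ e'.source) :
    fderiv ℂ (fun z => f (e.symm z)) (e y) =
      (fderiv ℂ (fun z => f (e'.symm z)) (e' y)).comp (fderiv ℂ (fun z => e' (e.symm z)) (e y)) := by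
  have h1 := h.hasFDerivAt he' hy'
  have h2 : HasFDerivAt (fun z => e' (e.symm z)) (fderiv ℂ (fun z => e' (e.symm z)) (e y)) (e y) :=
    (trans_an he he' hy hy').differentiableAt.hasFDerivAt
  have h3 : HasFDerivAt (fun z => f (e'.symm (e' (e.symm z))))
      ((fderiv ℂ (fun z => f (e'.symm z)) (e' y)).comp (fderiv ℂ (fun z => e' (e.symm z)) (e y)))
      (e y) := by
    refine HasFDerivAt.comp (g := fun z => f (e'.symm z)) (e y) ?_ h2
    show HasFDerivAt (fun z => f (e'.symm z)) _ (e' (e.symm (e y)))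
    rw [e.left_inv hy]
    exact h1
  refine HasFDerivAt.fderiv (h3.congr_of_eventuallyEq ?_)
  have hcs : Tendsto e.symm (𝓝 (e y)) (𝓝 y) := by
    have := e.continuousAt_symm (e.map_source hy)
    rwa [ContinuousAt, e.left_inv hy] at this
  filter_upwards [hcs.eventually (e'.open_source.mem_nhds hy')] with z hz
  rw [e'.left_inv hz]

end

variable {d r : ℕ} {M : Type} [TopologicalSpace M] [ChartedSpace (Cm d) M]
  [IsManifold 𝓘(ℂ, Cm d) ω M]
  {W : Type} [NormedAddCommGroup W] [InnerProductSpace ℂ W] [CompleteSpace W]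

variable (d) in
/-- the image of `Θ` at `x` -/
def TT (Fp : M → M → W) (x : M) : Submodule ℂ W := LinearMap.range (dM d (Fp x) x : Cm d →ₗ[ℂ] W)

/-- constant rank ==> normal form -/
theorem nf_of {Fp : M → M → W} (hP : Prim d Fp) {x : M} {b : M → Cm r} {Gx : Cm r → W}
    (hb : AnM d b x) (hbs : Function.Surjective (dM d b x)) (hG : AnalyticAt ℂ Gx (b x))
    (hGi : Function.Injective (fderiv ℂ Gx (b x)))
    (heq : ∀ᶠ y in 𝓝 x, Fp x y = Gx (b y) - Gx (b x)) :
    NF d (TT d Fp) Fp x b (fun z => Gx z - Gx (b x)) := by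
  set e := chartAt (Cm d) x with hedef
  have he : e ∈ atlas (Cm d) M := chart_mem_atlas _ _
  have hx : x ∈ e.source := mem_chart_source _ _
  have hbh : Hol d b x := hol_of_anM hb
  have hfd : ∀ z, fderiv ℂ (fun z => Gx z - Gx (b x)) z = fderiv ℂ Gx z := fun z =>
    fderiv_sub_const _
  -- surjectivity of the derivative of `b` near `x`
  have hsurj : ∀ᶠ y in 𝓝 x, y ∈ e.source ∧ Hol d b y ∧
      Function.Surjective (fderiv ℂ (fun z => b (e.symm z)) (e y)) := by
    have h1 : ContinuousAt (fderiv ℂ (fun z => b (e.symm z))) (e x) :=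
      AnalyticAt.continuousAt (AnalyticAt.fderiv hb)
    have h2 : ∀ᶠ z in 𝓝 (e x), Function.Surjective (fderiv ℂ (fun z => b (e.symm z)) z) :=
      h1.eventually (surj_isOpen.mem_nhds hbs)
    filter_upwards [e.open_source.mem_nhds hx, hbh.ev, (e.continuousAt hx).eventually h2]
      with y a1 a2 a3 using ⟨a1, a2, a3⟩
  have hopn : ∀ᶠ y in 𝓝 x, map b (𝓝 y) = 𝓝 (b y) := by
    filter_upwards [hsurj] with y ⟨h1, h2, h3⟩
    have h4 : HasStrictFDerivAt (fun z => b (e.symm z)) (fderiv ℂ (fun z => b (e.symm z)) (e y))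
        (e y) := ((hol_iff he h1).1 h2).hasStrictFDerivAt
    have h5 := h4.map_nhds_eq_of_surj (LinearMap.range_eq_top.2 h3)
    have h6 : map e.symm (𝓝 (e y)) = 𝓝 y := e.symm_map_nhds_eq h1
    have h7 : map (fun z => b (e.symm z)) (𝓝 (e y)) = map b (𝓝 y) := by
      rw [← h6, map_map]
      rfl
    rw [← h7, h5, e.left_inv h1]
  have hGan : ∀ᶠ y in 𝓝 x, AnalyticAt ℂ Gx (b y) :=
    hbh.cont.eventually hG.eventually_analyticAt
  refine ⟨hbh, hopn, hG.sub analyticAt_const, ?_, heq, ?_⟩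
  · rw [hfd]
    exact hGi
  · filter_upwards [hsurj, hGan, hP.coh x, heq.eventually_nhds] with y ⟨h1, h2, h3⟩ h4 h5 h6
    rw [hfd]
    set e' := chartAt (Cm d) y with he'def
    have he' : e' ∈ atlas (Cm d) M := chart_mem_atlas _ _
    have hy : y ∈ e'.source := mem_chart_source _ _
    have hcs : Tendsto e'.symm (𝓝 (e' y)) (𝓝 y) := by
      have := e'.continuousAt_symm (e'.map_source hy)
      rwa [ContinuousAt, e'.left_inv hy] at this
    -- the derivative of `Fp y`
    have h7 : HasFDerivAt (fun z => Fp y (e'.symm z))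
        ((fderiv ℂ Gx (b y)).comp (fderiv ℂ (fun z => b (e'.symm z)) (e' y))) (e' y) := by
      have h8 : HasFDerivAt (fun z => Gx (b (e'.symm z)))
          ((fderiv ℂ Gx (b y)).comp (fderiv ℂ (fun z => b (e'.symm z)) (e' y))) (e' y) := by
        refine HasFDerivAt.comp (g := Gx) (e' y) ?_ (h2.hasFDerivAt he' hy)
        show HasFDerivAt Gx _ (b (e'.symm (e' y)))
        rw [e'.left_inv hy]
        exact h4.differentiableAt.hasFDerivAt
      have h9 : HasFDerivAt (fun z => Gx (b (e'.symm z)) - (Gx (b x) + Fp x y))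
          ((fderiv ℂ Gx (b y)).comp (fderiv ℂ (fun z => b (e'.symm z)) (e' y))) (e' y) :=
        h8.sub_const _
      refine h9.congr_of_eventuallyEq ?_
      filter_upwards [hcs.eventually (h5.and h6)] with z ⟨a1, a2⟩
      have a3 : Fp y (e'.symm z) = Fp x (e'.symm z) - Fp x y := by rw [a1]; abel
      rw [a3, a2]
      abel
    have h10 : dM d (Fp y) y =
        (fderiv ℂ Gx (b y)).comp (fderiv ℂ (fun z => b (e'.symm z)) (e' y)) := h7.fderiv
    have h11 : Function.Surjective (fderiv ℂ (fun z => b (e'.symm z)) (e' y)) := by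
      have h12 := fderiv_chart h2 he he' h1 hy
      rw [h12] at h3
      exact Function.Surjective.of_comp h3
    show LinearMap.range (dM d (Fp y) y : Cm d →ₗ[ℂ] W) = _
    rw [h10]
    apply le_antisymm
    · rintro _ ⟨v, rfl⟩
      exact ⟨fderiv ℂ (fun z => b (e'.symm z)) (e' y) v, rfl⟩
    · rintro _ ⟨v, rfl⟩
      obtain ⟨v', rfl⟩ := h11 v
      exact ⟨v', rfl⟩

/-- **D_K** on the fibre, for `K` all of whose finite dimensional real representations have finite
range. -/
theorem dkmF (d : ℕ) (M K : Type) [TopologicalSpace M] [T2Space M] [ConnectedSpace M]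
    [ChartedSpace (Cm d) M] [IsManifold 𝓘(ℂ, Cm d) ω M] [Group K] [MulAction K M]
    (hK : ∀ k : K, ContMDiff 𝓘(ℂ, Cm d) 𝓘(ℂ, Cm d) ω fun x : M => k • x) (hfr : FinRep K)
    (hC : ∃ C : Set M, IsCompact C ∧ ∀ x : M, ∃ k : K, k • x ∈ C)
    (W : Type) [NormedAddCommGroup W] [InnerProductSpace ℂ W] [CompleteSpace W]
    (π : K →* (W ≃ₗᵢ[ℂ] W)) (Fp : M → M → W) (hP : H885.DK.Prim d Fp)
    (hequi : ∀ (k : K) (x : M), ∀ᶠ y in 𝓝 x, Fp (k • x) (k • y) = π k (Fp x y))
    (hnul : ∀ (v : W) (x₀ : M), (∀ᶠ x in 𝓝 x₀, ∃ η, dM d (Fp x) x η = v) → v = 0)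
    (G : Set M) (hGo : IsOpen G) (hGK : ∀ (k : K), ∀ x ∈ G, k • x ∈ G)
    (hthin : ∀ x : M, ∃ h : M → ℂ, AnM d h x ∧ (∃ᶠ y in 𝓝 x, h y ≠ 0) ∧
      ∀ᶠ y in 𝓝 x, h y ≠ 0 → y ∈ G)
    (r : ℕ) (hnf : ∀ x ∈ G, ∃ (b : M → Cm r) (Gx : Cm r → W), AnM d b x ∧
        Function.Surjective (dM d b x) ∧ AnalyticAt ℂ Gx (b x) ∧
        Function.Injective (fderiv ℂ Gx (b x)) ∧ ∀ᶠ y in 𝓝 x, Fp x y = Gx (b y) - Gx (b x))
    {ι : Type*} (l : Filter ι) (U : ι → (W →ₗᵢ[ℂ] W)) (hs : ∀ x ∈ G, ∃ c : ι → W, Sl Fp U l x c) :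
    ∀ᶠ j in l, ∀ x, ∀ᶠ y in 𝓝 x, U j (Fp x y) = Fp x y := by
  have hP' : Prim d Fp := ⟨fun x => hol_of_anM (hP.hol x).self_of_nhds, hP.self, hP.add⟩
  have hD : Dat d r (TT d Fp) Fp G := by
    refine ⟨hP', ⟨hGo.isClosed_compl, fun y => ?_⟩, fun x hx => ?_, fun x w hw => ?_⟩
    · obtain ⟨h, h1, h2, h3⟩ := hthin y
      have h1' : Hol d h y := hol_of_anM h1
      refine ⟨h, h1', not_eventually.2 h2, ?_⟩
      filter_upwards [h3] with z hz hzG
      by_contra hcon
      exact hzG (hz hcon)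
    · obtain ⟨b, Gx, h1, h2, h3, h4, h5⟩ := hnf x hx
      exact ⟨b, _, nf_of hP' h1 h2 h3 h4 h5⟩
    · refine hnul w x ?_
      filter_upwards [hw] with y hy
      obtain ⟨η, hη⟩ := hy
      exact ⟨η, hη⟩
  have hA : Act d K π (TT d Fp) Fp G := by
    refine ⟨fun k x => hK k x, hGK, hequi, fun k x w hw => ?_, hC⟩
    obtain ⟨η, rfl⟩ := hw
    set e := chartAt (Cm d) x with hedef
    have he : e ∈ atlas (Cm d) M := chart_mem_atlas _ _
    have hx : x ∈ e.source := mem_chart_source _ _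
    set e' := chartAt (Cm d) (k • x) with he'def
    have he' : e' ∈ atlas (Cm d) M := chart_mem_atlas _ _
    have hx' : k • x ∈ e'.source := mem_chart_source _ _
    have h1 : Hol d (fun y : M => e' (k • y)) x := by
      have h2 : Hol d e' (k • x) :=
        contMDiffAt_of_mem_maximalAtlas (IsManifold.subset_maximalAtlas he') hx'
      exact ContMDiffAt.comp (g := e') x h2 (hK k x)
    have h2 := h1.hasFDerivAt he hx
    have h3 : HasFDerivAt (fun z => Fp (k • x) (e'.symm z)) (dM d (Fp (k • x)) (k • x))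
        (e' (k • x)) := (hP'.hol (k • x)).hasFDerivAt he' hx'
    have h4 : HasFDerivAt (fun z => Fp (k • x) (e'.symm (e' (k • e.symm z))))
        ((dM d (Fp (k • x)) (k • x)).comp (fderiv ℂ (fun z => e' (k • e.symm z)) (e x))) (e x) := by
      refine HasFDerivAt.comp (g := fun z => Fp (k • x) (e'.symm z)) (e x) ?_ h2
      show HasFDerivAt (fun z => Fp (k • x) (e'.symm z)) _ (e' (k • e.symm (e x)))
      rw [e.left_inv hx]
      exact h3
    have h5 : HasFDerivAt (fun z => π k (Fp x (e.symm z)))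
        (((π k).toContinuousLinearEquiv : W →L[ℂ] W).comp (dM d (Fp x) x)) (e x) :=
      ((π k).toContinuousLinearEquiv : W →L[ℂ] W).hasFDerivAt.comp (e x)
        ((hP'.hol x).hasFDerivAt he hx)
    have hcs : Tendsto e.symm (𝓝 (e x)) (𝓝 x) := by
      have := e.continuousAt_symm (e.map_source hx)
      rwa [ContinuousAt, e.left_inv hx] at this
    have h6 : ∀ᶠ z in 𝓝 (e x), Fp (k • x) (e'.symm (e' (k • e.symm z))) =
        π k (Fp x (e.symm z)) := by
      have h7 : ∀ᶠ y in 𝓝 x, k • y ∈ e'.source :=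
        (hK k x).continuousAt.eventually (e'.open_source.mem_nhds hx')
      filter_upwards [hcs.eventually (h7.and (hequi k x))] with z ⟨a1, a2⟩
      rw [e'.left_inv a1, a2]
    have h7 := (h4.congr_of_eventuallyEq (h6.mono fun z hz => hz.symm)).unique h5
    refine ⟨fderiv ℂ (fun z => e' (k • e.symm z)) (e x) η, ?_⟩
    exact congrArg (fun L : Cm d →L[ℂ] W => L η) h7
  exact dkF hD hA hfr hs

/-- **D_K**, in the form of `DKMStmt` -/
theorem dkm : DKMStmt := by
  intro d M K _ _ _ _ _ _ _ hK hfg hF hnv hC W _ _ _ π Fp hP hequi hnul G hGo hGK hthin r hnf ι l U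
    hs
  exact dkmF d M K hK (finRep_of hfg hF hnv) hC W π Fp hP hequi hnul G hGo hGK hthin r hnf l U hs

end Vale.Agent.P284.H573.DK
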