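import Vale.Agent.P284.H212.Disc
import Vale.Agent.P284.H221.C7
import Vale.Agent.P281.H383.Gen.Ext

/-!
# P284 (helper573), piece (C2) of [C]: D_K, basic facts on holomorphic maps on a complex manifold
-/

open scoped Topology ContDiff Manifold
open Filter Set Metric

noncomputable section

namespace Vale.Agent.P284.H573.DK

open Vale.Agent.P272.K

section hol
variable {d : ℕ} {M : Type} [TopologicalSpace M] [ChartedSpace (Cm d) M]
  {V : Type*} [NormedAddCommGroup V] [NormedSpace ℂ V]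
  {V' : Type*} [NormedAddCommGroup V'] [NormedSpace ℂ V']

variable (d) in
/-- `f` is holomorphic at `x` -/
def Hol (f : M → V) (x : M) : Prop := ContMDiffAt 𝓘(ℂ, Cm d) 𝓘(ℂ, V) ω f x

lemma Hol.congr {f g : M → V} {x : M} (h : Hol d f x) (h' : ∀ᶠ y in 𝓝 x, g y = f y) :
    Hol d g x := ContMDiffAt.congr_of_eventuallyEq h h'

lemma Hol.cont {f : M → V} {x : M} (h : Hol d f x) : ContinuousAt f x := ContMDiffAt.continuousAt h

lemma hol_const (v : V) (x : M) : Hol d (fun _ => v) x := contMDiffAt_const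

lemma Hol.add {f g : M → V} {x : M} (h : Hol d f x) (h' : Hol d g x) :
    Hol d (fun y => f y + g y) x := ContMDiffAt.add h h'

lemma Hol.sub {f g : M → V} {x : M} (h : Hol d f x) (h' : Hol d g x) :
    Hol d (fun y => f y - g y) x := ContMDiffAt.sub h h'

lemma Hol.comp {f : M → V} {x : M} (h : Hol d f x) {g : V → V'} (hg : ContDiffAt ℂ ω g (f x)) :
    Hol d (fun y => g (f y)) x :=
  ContMDiffAt.comp (g := g) x hg.contMDiffAt h

lemma Hol.clm {f : M → V} {x : M} (h : Hol d f x) (g : V →L[ℂ] V') : Hol d (fun y => g (f y)) x :=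
  h.comp g.contDiff.contDiffAt

lemma Hol.smul {f : M → V} {x : M} (h : Hol d f x) (a : ℂ) : Hol d (fun y => a • f y) x :=
  h.clm (a • ContinuousLinearMap.id ℂ V)

variable [IsManifold 𝓘(ℂ, Cm d) ω M]

/-- in a chart -/
lemma hol_iff [CompleteSpace V] {f : M → V} {e : OpenPartialHomeomorph M (Cm d)}
    (he : e ∈ atlas (Cm d) M) {x : M} (hx : x ∈ e.source) :
    Hol d f x ↔ AnalyticAt ℂ (fun z => f (e.symm z)) (e x) := by
  have hm : e ∈ IsManifold.maximalAtlas 𝓘(ℂ, Cm d) ω M := IsManifold.subset_maximalAtlas he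
  constructor
  · intro h
    have h1 : ContMDiffAt 𝓘(ℂ, Cm d) 𝓘(ℂ, Cm d) ω e.symm (e x) :=
      contMDiffAt_symm_of_mem_maximalAtlas hm (e.map_source hx)
    have h2 : ContMDiffAt 𝓘(ℂ, Cm d) 𝓘(ℂ, V) ω (fun z => f (e.symm z)) (e x) := by
      refine ContMDiffAt.comp (g := f) (e x) ?_ h1
      rw [e.left_inv hx]
      exact h
    exact (contMDiffAt_iff_contDiffAt.1 h2).analyticAt
  · intro h
    have h1 : ContMDiffAt 𝓘(ℂ, Cm d) 𝓘(ℂ, Cm d) ω e x := contMDiffAt_of_mem_maximalAtlas hm hx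
    have h2 : ContMDiffAt 𝓘(ℂ, Cm d) 𝓘(ℂ, V) ω (fun y => f (e.symm (e y))) x :=
      ContMDiffAt.comp (g := fun z => f (e.symm z)) x h.contDiffAt.contMDiffAt h1
    refine Hol.congr h2 ?_
    filter_upwards [e.open_source.mem_nhds hx] with y hy
    rw [e.left_inv hy]

lemma Hol.ev [CompleteSpace V] {f : M → V} {x : M} (h : Hol d f x) : ∀ᶠ y in 𝓝 x, Hol d f y := by
  set e := chartAt (Cm d) x
  have he : e ∈ atlas (Cm d) M := chart_mem_atlas _ _
  have hx : x ∈ e.source := mem_chart_source _ _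
  have h1 := ((hol_iff he hx).1 h).eventually_analyticAt
  have h2 := (e.continuousAt hx).eventually h1
  filter_upwards [h2, e.open_source.mem_nhds hx] with y hy hy2
  exact (hol_iff he hy2).2 hy

lemma Hol.cont_ev [CompleteSpace V] {f : M → V} {x : M} (h : Hol d f x) :
    ∀ᶠ y in 𝓝 x, ContinuousAt f y := h.ev.mono fun _ hy => hy.cont

/-- identity theorem on an open preconnected set -/
theorem ident_on [CompleteSpace V] {S : Set M} (hS : IsPreconnected S) (hSo : IsOpen S) {f : M → V}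
    (hf : ∀ x ∈ S, Hol d f x) {x₀ : M} (hx₀ : x₀ ∈ S) (h0 : ∀ᶠ y in 𝓝 x₀, f y = 0) {x : M}
    (hx : x ∈ S) : f x = 0 := by
  have h1 : S ⊆ {x | ∀ᶠ y in 𝓝 x, f y = 0} := by
    refine hS.subset_of_closure_inter_subset isOpen_setOfPred_eventually_nhds ⟨x₀, hx₀, h0⟩ ?_
    rintro x ⟨hx, hxS⟩
    set e := chartAt (Cm d) x
    have he : e ∈ atlas (Cm d) M := chart_mem_atlas _ _
    have hxe : x ∈ e.source := mem_chart_source _ _
    have hcs : Tendsto e.symm (𝓝 (e x)) (𝓝 x) := by
      have := e.continuousAt_symm (e.map_source hxe)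
      rwa [ContinuousAt, e.left_inv hxe] at this
    obtain ⟨ρ, hρ, hρe⟩ := Metric.eventually_nhds_iff_ball.1
      ((show ∀ᶠ z in 𝓝 (e x), z ∈ e.target from e.open_target.mem_nhds (e.map_source hxe)).and
        (show ∀ᶠ z in 𝓝 (e x), e.symm z ∈ S from hcs.eventually (hSo.mem_nhds hxS)))
    have h1 : e.source ∩ e ⁻¹' ball (e x) ρ ∈ 𝓝 x :=
      inter_mem (e.open_source.mem_nhds hxe) (e.continuousAt hxe (ball_mem_nhds _ hρ))
    obtain ⟨y, hy1, hy2⟩ := mem_closure_iff_nhds.1 hx _ h1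
    have h2 : ∀ᶠ z in 𝓝 (e y), f (e.symm z) = 0 := by
      have h3 := e.continuousAt_symm (e.map_source hy1.1)
      rw [ContinuousAt, e.left_inv hy1.1] at h3
      exact h3.eventually hy2
    have h3 : AnalyticOnNhd ℂ (fun z => f (e.symm z)) (ball (e x) ρ) := fun z hz => by
      have := (hol_iff (f := f) he (e.map_target (hρe z hz).1)).1 (hf _ (hρe z hz).2)
      rwa [e.right_inv (hρe z hz).1] at this
    have h4 := h3.eqOn_zero_of_preconnected_of_eventuallyEq_zero
      (convex_ball (e x) ρ).isPreconnected hy1.2 h2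
    have h5 : ∀ᶠ y in 𝓝 x, y ∈ e.source ∩ e ⁻¹' ball (e x) ρ := h1
    show ∀ᶠ y in 𝓝 x, f y = 0
    filter_upwards [h5] with w hw
    have := h4 hw.2
    simp only [Pi.zero_apply] at this
    rwa [e.left_inv hw.1] at this
  have h2 : ∀ᶠ y in 𝓝 x, f y = 0 := h1 hx
  exact h2.self_of_nhds

/-- identity theorem -/
theorem ident [PreconnectedSpace M] [CompleteSpace V] {f : M → V} (hf : ∀ x, Hol d f x) {x₀ : M}
    (h0 : ∀ᶠ y in 𝓝 x₀, f y = 0) (x : M) : f x = 0 :=
  ident_on isPreconnected_univ isOpen_univ (fun x _ => hf x) (mem_univ x₀) h0 (mem_univ x)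

/-- maximum principle: a holomorphic map with invariant norm is constant -/
theorem const_of_inv [PreconnectedSpace M] [CompleteSpace V] [StrictConvexSpace ℝ V]
    {K : Type} [Group K] [MulAction K M] {K' : Set K} {f : M → V} (hf : ∀ x, Hol d f x)
    (hinv : ∀ k ∈ K', ∀ x, ‖f (k • x)‖ = ‖f x‖) {C : Set M} (hC : IsCompact C)
    (hCK : ∀ x, ∃ k ∈ K', k • x ∈ C) (x y : M) : f x = f y := by
  have hc : Continuous f := continuous_iff_continuousAt.2 fun x => (hf x).cont
  refine H221.glob_max (Γ := K) (E := M) (Y := univ) isClosed_univ isPreconnected_univ (φ := f)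
    (N := fun x => ‖f x‖) hc.continuousOn hc.norm.continuousOn (K' := K')
    (fun k hk y _ => ⟨trivial, hinv k hk y⟩) hC (fun y _ => hCK y) (fun y _ y' _ h => ?_) ?_
    x trivial y trivial
  · show ‖f y‖ = ‖f y'‖
    rw [h]
  · intro y _ hmax
    set e := chartAt (Cm d) y
    have he : e ∈ atlas (Cm d) M := chart_mem_atlas _ _
    have hy : y ∈ e.source := mem_chart_source _ _
    have h1 : ∀ᶠ z in 𝓝 (e y), DifferentiableAt ℂ (fun z => f (e.symm z)) z :=
      ((hol_iff he hy).1 (hf y)).eventually_analyticAt.mono fun z hz => hz.differentiableAt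
    have h2 : IsLocalMax (norm ∘ fun z => f (e.symm z)) (e y) := by
      refine Eventually.of_forall fun z => ?_
      show ‖f (e.symm z)‖ ≤ ‖f (e.symm (e y))‖
      rw [e.left_inv hy]
      exact hmax _ trivial
    have h3 := Complex.eventually_eq_of_isLocalMax_norm h1 h2
    have h4 : ∀ᶠ y' in 𝓝 y, f (e.symm (e y')) = f (e.symm (e y)) :=
      (e.continuousAt hy).eventually h3
    filter_upwards [h4, e.open_source.mem_nhds hy] with y' a1 a2 _
    rw [e.left_inv a2, e.left_inv hy] at a1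
    exact a1

end hol

/-! ### clopen subsets of preconnected sets -/

lemma pc_clopen {X : Type*} [TopologicalSpace X] {S A : Set X} (hS : IsPreconnected S)
    (hSo : IsOpen S) (hA : ∀ x ∈ S, x ∈ A → ∀ᶠ y in 𝓝 x, y ∈ A)
    (hcl : ∀ x ∈ S, (∃ᶠ y in 𝓝 x, y ∈ S ∧ y ∈ A) → x ∈ A) (hne : ∃ x ∈ S, x ∈ A) :
    ∀ x ∈ S, x ∈ A := by
  have h1 : S ⊆ interior A := by
    refine hS.subset_of_closure_inter_subset isOpen_interior ?_ ?_
    · obtain ⟨x, hx, hxA⟩ := hne
      exact ⟨x, hx, mem_interior_iff_mem_nhds.2 (hA x hx hxA)⟩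
    · rintro x ⟨hx, hxS⟩
      refine mem_interior_iff_mem_nhds.2 (hA x hxS (hcl x hxS ?_))
      rw [mem_closure_iff_frequently] at hx
      refine (hx.and_eventually (hSo.mem_nhds hxS)).mono fun y hy => ?_
      exact ⟨hy.2, interior_subset hy.1⟩
  exact fun x hx => interior_subset (h1 hx)

/-! ### complements of thin sets -/

section thin

open TopologicalSpace
open Vale.Agent.P281.H64.Thin (IsThinSet)
open Vale.Agent.P281.H64.Gen (IsSmallSet)

variable {d : ℕ} {M : Type} [TopologicalSpace M] [T2Space M] [ChartedSpace (Cm d) M]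
  [IsManifold 𝓘(ℂ, Cm d) ω M]

/-- The complement of a thin set in a connected open subset. -/
theorem pre_open {N : Set M} (hN : IsOpen N) (hc : IsPreconnected N) {S : Set M}
    (hS : IsThinSet (Cm d) S) : IsPreconnected (N \ S) := by
  let U : Opens M := ⟨N, hN⟩
  have hpre : PreconnectedSpace U := isPreconnected_iff_preconnectedSpace.1 hc
  have hmap : ∀ y : U, Filter.map (Subtype.val : U → M) (𝓝 y) = 𝓝 (y : M) := fun y =>
    U.isOpen.isOpenEmbedding_subtypeVal.map_nhds_eq y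
  have hthin : IsThinSet (Cm d) (Subtype.val ⁻¹' S : Set U) := by
    refine ⟨hS.1.preimage continuous_subtype_val, fun y => ?_⟩
    obtain ⟨g, hg, hne, hs⟩ := hS.2 (y : M)
    refine ⟨fun z => g z, contMDiffAt_subtype_iff.2 hg, fun h => hne ?_, ?_⟩
    · rw [← hmap y]
      exact h
    · rw [← hmap y] at hs
      exact hs
  have hsmall : IsSmallSet (Cm d) (Subtype.val ⁻¹' S : Set U) :=
    ⟨hthin.1, fun _ => Subtype.val ⁻¹' S, fun _ => hthin, fun y hy => mem_iUnion.2 ⟨0, hy⟩⟩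
  have h1 := (Vale.Agent.P281.H383.Gen.compl d U (Subtype.val ⁻¹' S) hsmall).2
  have h2 : N \ S = Subtype.val '' ((Subtype.val ⁻¹' S : Set U)ᶜ) := by
    ext w
    constructor
    · rintro ⟨hw1, hw2⟩
      exact ⟨⟨w, hw1⟩, hw2, rfl⟩
    · rintro ⟨z, hz, rfl⟩
      exact ⟨z.2, hz⟩
  rw [h2]
  exact h1.image _ continuous_subtype_val.continuousOn

end thin

end Vale.Agent.P284.H573.DK
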