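import Vale.Agent.P284.H573.DK.Kill

/-!
# P284 (helper573), piece (C2) of [C]: D_K on a complex manifold

Isometries which slide the sheets of `Θ` near the identity, near every good point, fix `Θ` eventually.
-/

open scoped Topology ContDiff Manifold
open Filter Set Metric

set_option linter.unusedSectionVars false

noncomputable section

namespace Vale.Agent.P284.H573.DK

open Vale.Agent.P272.K Vale.Agent.P284.H212 Vale.Agent.P284.H894.G Vale.Agent.P284.H894.V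
open Vale.Agent.P281.H64.Thin (IsThinSet)

variable {d r : ℕ} {M : Type} [TopologicalSpace M] [T2Space M] [ChartedSpace (Cm d) M]
  [IsManifold 𝓘(ℂ, Cm d) ω M]
  {W : Type} [NormedAddCommGroup W] [InnerProductSpace ℂ W] [CompleteSpace W]
variable {T : M → Submodule ℂ W} {Fp : M → M → W} {G : Set M}

/-- an isometry which fixes the primitive near one point fixes it near all points -/
theorem fix_all [PreconnectedSpace M] (hP : Prim d Fp) (U : W →ₗᵢ[ℂ] W) {x₀ : M}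
    (h0 : ∀ᶠ y in 𝓝 x₀, U (Fp x₀ y) = Fp x₀ y) (x : M) : ∀ᶠ y in 𝓝 x, U (Fp x y) = Fp x y := by
  refine pc_clopen (A := {x | ∀ᶠ y in 𝓝 x, U (Fp x y) = Fp x y}) isPreconnected_univ isOpen_univ
    ?_ ?_ ⟨x₀, mem_univ _, h0⟩ x (mem_univ x)
  · intro x _ hx
    have hx' : ∀ᶠ y in 𝓝 x, U (Fp x y) = Fp x y := hx
    filter_upwards [hx'.eventually_nhds, hP.coh x] with x' h1 h2
    show ∀ᶠ y in 𝓝 x', U (Fp x' y) = Fp x' y
    filter_upwards [h1, h2] with y h3 h4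
    have h5 := h1.self_of_nhds
    rw [h4, map_add, h5] at h3
    exact add_left_cancel h3
  · intro x _ hf
    obtain ⟨N, hNs, hNo, hxN, hNc⟩ := exists_conn d (x := x) ((hP.hol x).ev.and (hP.coh x))
    obtain ⟨x', ⟨-, h1⟩, hx'N⟩ := (hf.and_eventually (hNo.mem_nhds hxN)).exists
    have h1' : ∀ᶠ y in 𝓝 x', U (Fp x' y) = Fp x' y := h1
    have h2 : ∀ y ∈ N, (U (Fp x y) - Fp x y) - (U (Fp x x') - Fp x x') = 0 := by
      intro y hy
      refine ident_on (d := d) hNc hNo (f := fun y => (U (Fp x y) - Fp x y) -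
        (U (Fp x x') - Fp x x')) (fun w hw => ?_) hx'N ?_ hy
      · exact (((hNs hw).1.clm U.toContinuousLinearMap).sub (hNs hw).1).sub (hol_const _ _)
      · filter_upwards [h1', (hNs hx'N).2] with w h3 h4
        rw [h4, map_add, h3]
        abel
    have h3 := h2 x hxN
    rw [hP.zero, map_zero, sub_zero, zero_sub, neg_eq_zero] at h3
    show ∀ᶠ y in 𝓝 x, U (Fp x y) = Fp x y
    filter_upwards [hNo.mem_nhds hxN] with y hy
    have h4 := h2 y hy
    rw [h3, sub_zero] at h4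
    exact sub_eq_zero.1 h4

variable {K : Type} [Group K] [MulAction K M] {π : K →* (W ≃ₗᵢ[ℂ] W)} {ι : Type*}
  {U : ι → W →ₗᵢ[ℂ] W} {l : Filter ι}

/-- **D_K**, for groups all of whose finite dimensional real representations have finite range. -/
theorem dkF [ConnectedSpace M] (h : Dat d r T Fp G) (hA : Act d K π T Fp G) (hfr : FinRep K)
    (hx : ∀ x ∈ G, ∃ c, Sl Fp U l x c) :
    ∀ᶠ j in l, ∀ x, ∀ᶠ y in 𝓝 x, U j (Fp x y) = Fp x y := by
  obtain ⟨C, hC⟩ := h.exists_sys hx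
  obtain ⟨x₀, hx₀⟩ : G.Nonempty := h.dense.nonempty
  obtain ⟨b, Γ, hn⟩ := h.nf x₀ hx₀
  obtain ⟨R, δ, κ, N, hD⟩ := hn.dn h.prim
  have hR := hD.disc.R_pos
  obtain ⟨ρ, hρ, N', hN', hN'N, hbN', hρR, hsl⟩ := hD.slide (hC.sl x₀ hx₀) (R' := R) hR
  set a := b x₀ with ha
  -- the cluster
  have h1 : b '' (N' ∩ ({y | Tendsto (disp Fp U x₀ (C x₀) y) l (𝓝 0)} ∩
      {y | ∀ᶠ j in l, C y j = disp Fp U x₀ (C x₀) y j})) ∈ 𝓝 a := by
    rw [ha, ← hD.nhd x₀ hD.mem]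
    exact image_mem_map (inter_mem hN' (inter_mem ((hC.sl x₀ hx₀).tendsto h.prim) (hC.coh x₀)))
  obtain ⟨t, ht, htb⟩ := Metric.mem_nhds_iff.1 h1
  set τ' := min t ρ / 2 with hτ'
  have hτ'0 : 0 < τ' := by positivity
  have hτt : τ' < t := by
    have := min_le_left t ρ
    linarith
  have hτρ : τ' < ρ := by
    have := min_le_right t ρ
    linarith
  choose q hq hqb using fun i => htb (Disc.clu_mem a hτ'0 hτt i)
  set τ : ι → ℝ := fun j => ∑ i, ‖disp Fp U x₀ (C x₀) (q i) j‖ with hτ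
  have hτ0 : ∀ j, 0 ≤ τ j := fun j => Finset.sum_nonneg fun i _ => norm_nonneg _
  have hτi : ∀ j i, ‖disp Fp U x₀ (C x₀) (q i) j‖ ≤ τ j := fun j i =>
    Finset.single_le_sum (f := fun i => ‖disp Fp U x₀ (C x₀) (q i) j‖)
      (fun i _ => norm_nonneg _) (Finset.mem_univ i)
  have hτt' : Tendsto τ l (𝓝 0) := by
    have := tendsto_finsetSum (f := fun i j => ‖disp Fp U x₀ (C x₀) (q i) j‖)
      (Finset.univ : Finset (Option (Fin r × Bool))) (x := l) (a := fun _ => (0 : ℝ))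
      (fun i _ => by simpa using (hq i).2.1.norm)
    rw [Finset.sum_const_zero] at this
    exact this
  -- the bound at `x₀`
  have hbd : ∀ᶠ j in l, ∀ z ∈ N', ‖disp Fp U x₀ (C x₀) z j‖ ≤
      ((‖fderiv ℂ Γ a‖ + 1) * Disc.C r (fderiv ℂ Γ a) R κ τ') * τ j := by
    filter_upwards [hsl] with j ⟨φ, hφ⟩ z hz
    have hzb : b z ∈ ball a ρ := by rw [← hbN']; exact ⟨z, hz, rfl⟩
    have h3 := hD.disc.chord hτ'0 (hτρ.trans_le hρR) (ball_subset_ball hρR)
      (fun i => Disc.clu_mem a hτ'0 hτρ i) hφ (M := τ j) (fun i => by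
        rw [← hφ.eq _ (Disc.clu_mem a hτ'0 hτρ i), ← hqb i, ← hD.eq _ (hN'N (hq i).1)]
        exact hτi j i) hzb
    have h4 : disp Fp U x₀ (C x₀) z j = Γ (φ (b z)) - Γ (b z) := by
      simp only [disp]
      rw [hD.eq z (hN'N hz), hφ.eq _ hzb]
    rw [h4]
    calc ‖Γ (φ (b z)) - Γ (b z)‖ ≤ (‖fderiv ℂ Γ a‖ + 1) * ‖φ (b z) - b z‖ :=
          hD.disc.lips (hφ.maps _ hzb) (hD.maps z (hN'N hz))
      _ ≤ (‖fderiv ℂ Γ a‖ + 1) * (Disc.C r (fderiv ℂ Γ a) R κ τ' * τ j) := by gcongr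
      _ = _ := by ring
  -- `τ = 0` eventually
  have hzero : ∀ᶠ j in l, τ j = 0 := by
    by_contra hcon
    have hne : (l ⊓ 𝓟 {j | τ j ≠ 0}).NeBot := frequently_iff_neBot.1 (not_eventually.1 hcon)
    set 𝒰 : Ultrafilter ι := Ultrafilter.of (l ⊓ 𝓟 {j | τ j ≠ 0}) with h𝒰
    have h𝒰l : (𝒰 : Filter ι) ≤ l := (Ultrafilter.of_le _).trans inf_le_left
    have h𝒰n : ∀ᶠ j in (𝒰 : Filter ι), 0 < τ j := by
      have h2 : ∀ᶠ j in (𝒰 : Filter ι), τ j ≠ 0 :=
        ((Ultrafilter.of_le _).trans inf_le_right) (mem_principal_self _)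
      filter_upwards [h2] with j hj
      exact lt_of_le_of_ne (hτ0 j) hj.symm
    have hC' : Sys Fp G U (𝒰 : Filter ι) C :=
      ⟨fun x hx => (hC.sl x hx).mono h𝒰l, fun x => (hC.coh x).mono fun y hy => h𝒰l hy⟩
    have hb := h.bdd hC' hτ0 hx₀ ⟨_, N', hN', h𝒰l hbd⟩
    obtain ⟨u, hu1, hu2, hu3, hu4⟩ := h.exists_field hC' h𝒰n (hτt'.mono_left h𝒰l) hb
    have hu : u = 0 := hA.vv_zero h hfr ⟨hu1, hu2, hu3⟩
    have h5 : ∀ i, Tendsto (fun j => (((τ j)⁻¹ : ℝ) : ℂ) • disp Fp U x₀ (C x₀) (q i) j) 𝒰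
        (𝓝 0) := by
      intro i
      have h6 := hu4 (q i)
      rw [hu] at h6
      refine h6.congr' ?_
      filter_upwards [h𝒰l (hq i).2.2] with j hj
      rw [hj]
    have h6 : Tendsto (fun j => ∑ i, ‖(((τ j)⁻¹ : ℝ) : ℂ) • disp Fp U x₀ (C x₀) (q i) j‖) 𝒰
        (𝓝 0) := by
      have := tendsto_finsetSum (f := fun i j => ‖(((τ j)⁻¹ : ℝ) : ℂ) •
        disp Fp U x₀ (C x₀) (q i) j‖)
        (Finset.univ : Finset (Option (Fin r × Bool))) (x := (𝒰 : Filter ι))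
        (a := fun _ => (0 : ℝ)) (fun i _ => by simpa using (h5 i).norm)
      rw [Finset.sum_const_zero] at this
      exact this
    have h7 : Tendsto (fun j => ∑ i, ‖(((τ j)⁻¹ : ℝ) : ℂ) • disp Fp U x₀ (C x₀) (q i) j‖) 𝒰
        (𝓝 1) := by
      refine (tendsto_const_nhds (x := (1 : ℝ))).congr' ?_
      filter_upwards [h𝒰n] with j hj
      have e1 : ∀ i, ‖(((τ j)⁻¹ : ℝ) : ℂ) • disp Fp U x₀ (C x₀) (q i) j‖ =
          (τ j)⁻¹ * ‖disp Fp U x₀ (C x₀) (q i) j‖ := fun i => by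
        rw [norm_smul, Complex.norm_real, Real.norm_of_nonneg (by positivity)]
      simp only [e1]
      rw [← Finset.mul_sum]
      exact (inv_mul_cancel₀ hj.ne').symm
    exact zero_ne_one (tendsto_nhds_unique h6 h7)
  filter_upwards [hzero, hbd] with j hj1 hj2 x
  refine fix_all h.prim (U j) (x₀ := x₀) ?_ x
  have h8 : ∀ z ∈ N', disp Fp U x₀ (C x₀) z j = 0 := by
    intro z hz
    have := hj2 z hz
    rw [hj1, mul_zero] at this
    exact norm_le_zero_iff.1 this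
  have h9 : C x₀ j = 0 := by
    have := h8 x₀ (mem_of_mem_nhds hN')
    rwa [disp_self h.prim] at this
  filter_upwards [hN'] with z hz
  have := h8 z hz
  simp only [disp] at this
  rw [h9, add_zero] at this
  exact sub_eq_zero.1 this

/-- **D_K.** -/
theorem dk [ConnectedSpace M] (h : Dat d r T Fp G) (hA : Act d K π T Fp G) (hfg : Group.FG K)
    (hF : Folner K) (hnv : ¬ VirtIndicable K) (hx : ∀ x ∈ G, ∃ c, Sl Fp U l x c) :
    ∀ᶠ j in l, ∀ x, ∀ᶠ y in 𝓝 x, U j (Fp x y) = Fp x y :=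
  dkF h hA (finRep_of hfg hF hnv) hx

end Vale.Agent.P284.H573.DK
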