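import Vale.Agent.P284.H573.DK.Glue

/-!
# P284 (helper573), piece (C2) of [C]: bounds over the bad points, by the maximum principle on circles
-/

open scoped Topology ContDiff Manifold
open Filter Set Metric

set_option linter.unusedSectionVars false

noncomputable section

namespace Vale.Agent.P284.H573.DK

open Vale.Agent.P272.K Vale.Agent.P284.H212

section loc
variable {E : Type*} [NormedAddCommGroup E] [NormedSpace ℂ E] {V : Type*} [NormedAddCommGroup V]
  [NormedSpace ℂ V] {ι : Type*} {l : Filter ι}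

/-- a direction along which `h` is not identically `0` -/
lemma exists_line {h : E → ℂ} {p : E} (hh : AnalyticAt ℂ h p) (hne : ¬ ∀ᶠ z in 𝓝 p, h z = 0) :
    ∃ v : E, ∀ᶠ t in 𝓝[≠] (0 : ℂ), h (p + t • v) ≠ 0 := by
  obtain ⟨ρ, hρ, hρa⟩ := Metric.eventually_nhds_iff_ball.1 hh.eventually_analyticAt
  obtain ⟨z, hz, hzb⟩ := ((not_eventually.1 hne).and_eventually (ball_mem_nhds p hρ)).exists
  refine ⟨z - p, ?_⟩
  have hmap : ∀ t : ℂ, AnalyticAt ℂ (fun t : ℂ => p + t • (z - p)) t := fun t =>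
    analyticAt_const.add (analyticAt_id.smul analyticAt_const)
  have han : ∀ t : ℂ, p + t • (z - p) ∈ ball p ρ → AnalyticAt ℂ (fun t => h (p + t • (z - p))) t :=
    fun t ht => AnalyticAt.comp (g := h) (f := fun t : ℂ => p + t • (z - p)) (hρa _ ht) (hmap t)
  have h0 : p + (0 : ℂ) • (z - p) ∈ ball p ρ := by
    rw [zero_smul, add_zero]; exact mem_ball_self hρ
  rcases (han 0 h0).eventually_eq_zero_or_eventually_ne_zero with h1 | h1
  · exfalso
    have hconv : IsPreconnected ((fun t : ℂ => p + t • (z - p)) ⁻¹' ball p ρ) := by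
      refine Convex.isPreconnected ?_
      intro s hs t ht a b ha hb hab
      have h2 := (convex_ball p ρ) hs ht ha hb hab
      have e1 : a • (p + s • (z - p)) + b • (p + t • (z - p)) =
          p + (a • s + b • t) • (z - p) := by
        have e2 : a • p + b • p = p := by rw [← add_smul, hab, one_smul]
        rw [add_smul, smul_assoc, smul_assoc, smul_add, smul_add]
        calc a • p + a • s • (z - p) + (b • p + b • t • (z - p)) =
            (a • p + b • p) + (a • s • (z - p) + b • t • (z - p)) := by abel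
          _ = _ := by rw [e2]
      show p + (a • s + b • t) • (z - p) ∈ ball p ρ
      rw [← e1]
      exact h2
    have h2 := AnalyticOnNhd.eqOn_zero_of_preconnected_of_eventuallyEq_zero
      (f := fun t => h (p + t • (z - p))) (fun t ht => han t ht) hconv h0 h1
    have h3 : (1 : ℂ) ∈ (fun t : ℂ => p + t • (z - p)) ⁻¹' ball p ρ := by
      show p + (1 : ℂ) • (z - p) ∈ ball p ρ
      rw [one_smul, add_sub_cancel]
      exact hzb
    have h4 := h2 h3
    simp only [one_smul, add_sub_cancel, Pi.zero_apply] at h4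
    exact hz h4
  · exact h1

/-- bounds at the points off `{h = 0}` give bounds on `{h = 0}` -/
theorem circ {D : E → ι → V} {τ : ι → ℝ} (hτ : ∀ j, 0 ≤ τ j) {p : E} {ρ : ℝ} (hρ : 0 < ρ)
    (hD : ∀ j, ∀ z ∈ ball p ρ, DifferentiableAt ℂ (fun z => D z j) z) {h : E → ℂ}
    (hh : AnalyticAt ℂ h p) (hne : ¬ ∀ᶠ z in 𝓝 p, h z = 0)
    (hb : ∀ z ∈ ball p ρ, h z ≠ 0 → ∃ A : ℝ, ∃ N ∈ 𝓝 z, ∀ᶠ j in l, ∀ w ∈ N, ‖D w j‖ ≤ A * τ j) :
    ∃ A : ℝ, ∃ N ∈ 𝓝 p, ∀ᶠ j in l, ∀ w ∈ N, ‖D w j‖ ≤ A * τ j := by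
  obtain ⟨v, hv⟩ := exists_line hh hne
  rw [eventually_nhdsWithin_iff] at hv
  obtain ⟨s, hs, hsv⟩ := Metric.eventually_nhds_iff_ball.1 hv
  set s₀ : ℝ := min (s / 2) (ρ / (4 * (‖v‖ + 1))) with hs₀
  have hs0 : 0 < s₀ := by positivity
  have hs₀s : s₀ < s := by
    have := min_le_left (s / 2) (ρ / (4 * (‖v‖ + 1)))
    linarith
  have hs₀v : s₀ * ‖v‖ ≤ ρ / 4 := by
    have h1 : s₀ ≤ ρ / (4 * (‖v‖ + 1)) := min_le_right _ _
    calc s₀ * ‖v‖ ≤ ρ / (4 * (‖v‖ + 1)) * (‖v‖ + 1) := by gcongr; linarith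
      _ = ρ / 4 := by field_simp
  have hnb : ∀ t : ℂ, ‖t‖ ≤ s₀ → ‖t • v‖ ≤ ρ / 4 := fun t ht => by
    rw [norm_smul]
    exact (by gcongr : ‖t‖ * ‖v‖ ≤ s₀ * ‖v‖).trans hs₀v
  set K : Set E := (fun t : ℂ => p + t • v) '' sphere 0 s₀ with hK
  have hKc : IsCompact K := (isCompact_sphere 0 s₀).image (by fun_prop)
  have hKP : ∃ A : ℝ, ∃ V : Set E, IsOpen V ∧ K ⊆ V ∧ ∀ᶠ j in l, ∀ w ∈ V, ‖D w j‖ ≤ A * τ j := by
    refine hKc.induction_on (p := fun K => ∃ A : ℝ, ∃ V : Set E, IsOpen V ∧ K ⊆ V ∧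
      ∀ᶠ j in l, ∀ w ∈ V, ‖D w j‖ ≤ A * τ j) ?_ ?_ ?_ ?_
    · exact ⟨0, ∅, isOpen_empty, Subset.rfl, Eventually.of_forall fun j w hw => absurd hw
        (Set.notMem_empty _)⟩
    · rintro S S' hSS ⟨A, V, h1, h2, h3⟩
      exact ⟨A, V, h1, hSS.trans h2, h3⟩
    · rintro S S' ⟨A, V, h1, h2, h3⟩ ⟨A', V', h1', h2', h3'⟩
      refine ⟨max A A', V ∪ V', h1.union h1', union_subset_union h2 h2', ?_⟩
      filter_upwards [h3, h3'] with j h4 h5 w hw
      rcases hw with hw | hw
      · exact (h4 w hw).trans (mul_le_mul_of_nonneg_right (le_max_left _ _) (hτ j))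
      · exact (h5 w hw).trans (mul_le_mul_of_nonneg_right (le_max_right _ _) (hτ j))
    · rintro _ ⟨t, ht, rfl⟩
      rw [mem_sphere_zero_iff_norm] at ht
      have ht0 : t ≠ 0 := by
        rintro rfl
        rw [norm_zero] at ht
        exact hs0.ne ht
      have h1 : p + t • v ∈ ball p ρ := by
        rw [mem_ball, dist_eq_norm, add_sub_cancel_left]
        have := hnb t ht.le
        linarith
      obtain ⟨A, N, hN, h2⟩ := hb _ h1 (hsv t (by rw [mem_ball_zero_iff, ht]; exact hs₀s) ht0)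
      obtain ⟨V, hVN, hVo, hVm⟩ := _root_.mem_nhds_iff.1 hN
      exact ⟨V, mem_nhdsWithin_of_mem_nhds (hVo.mem_nhds hVm), A, V, hVo, Subset.rfl,
        h2.mono fun j hj w hw => hj w (hVN hw)⟩
  obtain ⟨A, V, hVo, hKV, hA⟩ := hKP
  obtain ⟨η, hη, hηV⟩ := hKc.exists_thickening_subset_open hVo hKV
  refine ⟨A, ball p (min η (ρ / 2)), ball_mem_nhds p (by positivity), ?_⟩
  filter_upwards [hA] with j hj w hw
  have hwη : dist w p < η := lt_of_lt_of_le hw (min_le_left _ _)
  have hwρ : dist w p < ρ / 2 := lt_of_lt_of_le hw (min_le_right _ _)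
  have hmem : ∀ t : ℂ, ‖t‖ ≤ s₀ → w + t • v ∈ ball p ρ := fun t ht => by
    rw [mem_ball, dist_eq_norm, show w + t • v - p = (w - p) + t • v by abel]
    have h1 := norm_add_le (w - p) (t • v)
    have h2 := hnb t ht
    rw [← dist_eq_norm] at h1
    linarith
  have hdiff : DiffContOnCl ℂ (fun t : ℂ => D (w + t • v) j) (ball 0 s₀) := by
    refine DifferentiableOn.diffContOnCl ?_
    rw [closure_ball (0 : ℂ) hs0.ne']
    intro t ht
    have h1 : DifferentiableAt ℂ (fun t : ℂ => w + t • v) t := by fun_prop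
    exact (DifferentiableAt.comp (g := fun z => D z j) t
      (hD j _ (hmem t (mem_closedBall_zero_iff.1 ht))) h1).differentiableWithinAt
  have h3 := Complex.norm_le_of_forall_mem_frontier_norm_le isBounded_ball hdiff
    (C := A * τ j) (fun t ht => by
      rw [frontier_ball (0 : ℂ) hs0.ne', mem_sphere_zero_iff_norm] at ht
      refine hj _ (hηV ?_)
      rw [mem_thickening_iff]
      refine ⟨p + t • v, ⟨t, mem_sphere_zero_iff_norm.2 ht, rfl⟩, ?_⟩
      rw [dist_add_right]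
      exact hwη) (z := 0) (subset_closure (mem_ball_self hs0))
  simpa using h3

end loc

open Vale.Agent.P281.H64.Thin (IsThinSet)

variable {d r : ℕ} {M : Type} [TopologicalSpace M] [T2Space M] [ChartedSpace (Cm d) M]
  [IsManifold 𝓘(ℂ, Cm d) ω M]
  {W : Type} [NormedAddCommGroup W] [InnerProductSpace ℂ W] [CompleteSpace W]
variable {T : M → Submodule ℂ W} {Fp : M → M → W} {G : Set M} {ι : Type*}
  {U : ι → W →ₗᵢ[ℂ] W} {l : Filter ι}

/-- the thin function in the chart -/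
lemma thin_chart {S : Set M} (hS : IsThinSet (Cm d) S) (x : M) :
    ∃ h : Cm d → ℂ, AnalyticAt ℂ h (chartAt (Cm d) x x) ∧
      (¬ ∀ᶠ z in 𝓝 (chartAt (Cm d) x x), h z = 0) ∧
      ∀ᶠ y in 𝓝 x, y ∈ S → h (chartAt (Cm d) x y) = 0 := by
  obtain ⟨g, hg, hne, hs⟩ := hS.2 x
  set e := chartAt (Cm d) x
  have he : e ∈ atlas (Cm d) M := chart_mem_atlas _ _
  have hx : x ∈ e.source := mem_chart_source _ _
  have hg' : Hol d g x := hg
  refine ⟨fun z => g (e.symm z), (hol_iff he hx).1 hg', fun h0 => hne ?_, ?_⟩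
  · filter_upwards [(e.continuousAt hx).eventually h0, e.open_source.mem_nhds hx] with y h1 h2
    rwa [e.left_inv h2] at h1
  · filter_upwards [hs, e.open_source.mem_nhds hx] with y h1 h2 h3
    rw [e.left_inv h2]
    exact h1 h3

/-- bounds over the bad points -/
theorem Dat.circ_step (h : Dat d r T Fp G) {x : M} {c : ι → W} {τ : ι → ℝ} (hτ : ∀ j, 0 ≤ τ j)
    (hb : ∀ᶠ y in 𝓝 x, y ∈ G → BddAt (disp Fp U x c) τ l y) :
    BddAt (disp Fp U x c) τ l x := by
  obtain ⟨g, hg, hne, hs⟩ := thin_chart h.thin x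
  set e := chartAt (Cm d) x
  have he : e ∈ atlas (Cm d) M := chart_mem_atlas _ _
  have hx : x ∈ e.source := mem_chart_source _ _
  have hcs : Tendsto e.symm (𝓝 (e x)) (𝓝 x) := by
    have := e.continuousAt_symm (e.map_source hx)
    rwa [ContinuousAt, e.left_inv hx] at this
  have h1 : ∀ᶠ z in 𝓝 (e x), AnalyticAt ℂ (fun z => Fp x (e.symm z)) z :=
    ((hol_iff he hx).1 (h.prim.hol x)).eventually_analyticAt
  have h2 := hcs.eventually (hb.and hs)
  obtain ⟨ρ, hρ, hρ'⟩ := Metric.eventually_nhds_iff_ball.1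
    (h1.and (h2.and (e.open_target.mem_nhds (e.map_source hx))))
  have key := circ (D := fun z j => disp Fp U x c (e.symm z) j) (l := l) hτ hρ (fun j z hz => by
    have h3 := (hρ' z hz).1.differentiableAt
    have h4 : DifferentiableAt ℂ (fun z => U j (Fp x (e.symm z))) z :=
      ((U j).toContinuousLinearMap.differentiableAt).comp z h3
    exact (h4.add_const _).sub h3) hg hne (fun z hz hz0 => by
    obtain ⟨-, ⟨h3, h4⟩, h5⟩ := hρ' z hz
    rw [e.right_inv h5] at h4
    have hG : e.symm z ∈ G := by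
      by_contra hcon
      exact hz0 (h4 hcon)
    obtain ⟨A, N, hN, h6⟩ := h3 hG
    refine ⟨A, e.symm ⁻¹' N, (e.continuousAt_symm h5) hN, ?_⟩
    filter_upwards [h6] with j hj w hw
    exact hj _ hw)
  obtain ⟨A, N, hN, h6⟩ := key
  refine ⟨A, e.source ∩ e ⁻¹' N, inter_mem (e.open_source.mem_nhds hx) (e.continuousAt hx hN), ?_⟩
  filter_upwards [h6] with j hj y hy
  have := hj _ hy.2
  rwa [e.left_inv hy.1] at this

/-- **the displacements are bounded by `τ` everywhere** -/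
theorem Dat.bdd [PreconnectedSpace M] (h : Dat d r T Fp G) {C : M → ι → W}
    (hC : Sys Fp G U l C) {τ : ι → ℝ} (hτ : ∀ j, 0 ≤ τ j) {x₀ : M} (hx₀ : x₀ ∈ G)
    (h0 : BddAt (disp Fp U x₀ (C x₀)) τ l x₀) (x : M) : BddAt (disp Fp U x (C x)) τ l x := by
  have hG : ∀ x ∈ G, BddAt (disp Fp U x (C x)) τ l x := by
    have hpre : IsPreconnected G := by
      have := pre_open isOpen_univ isPreconnected_univ h.thin
      rwa [sdiff_compl, univ_inter] at this
    refine pc_clopen (A := {x | BddAt (disp Fp U x (C x)) τ l x}) hpre h.opn ?_ ?_ ⟨x₀, hx₀, h0⟩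
    · intro x _ hx
      filter_upwards [BddAt.ev hx, hC.change h.prim x] with y h1 ⟨N, hN, h2⟩
      exact h1.change hN h2
    · intro x hx hf
      obtain ⟨b, Γ, hn⟩ := h.nf x hx
      refine chord_step h.prim hn (hC.sl x hx) ?_
      refine (hf.and_eventually (hC.change h.prim x)).mono ?_
      rintro y ⟨⟨-, h1⟩, N, hN, h2⟩
      exact BddAt.change h1 hN (h2.mono fun j hj z hz => (hj z hz).symm)
  refine h.circ_step hτ ?_
  filter_upwards [hC.change h.prim x] with y ⟨N, hN, h2⟩ hy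
  exact BddAt.change (hG y hy) hN (h2.mono fun j hj z hz => (hj z hz).symm)

end Vale.Agent.P284.H573.DK
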