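import Vale.Agent.P284.H573.DK.Uni

/-!
# P284 (helper573), piece (C2) of [C]: gluing of the slidings over the whole manifold
-/

open scoped Topology ContDiff Manifold
open Filter Set Metric

set_option linter.unusedSectionVars false

noncomputable section

namespace Vale.Agent.P284.H573.DK

open Vale.Agent.P272.K Vale.Agent.P284.H212
open Vale.Agent.P281.H64.Thin (IsThinSet)

variable {d r : ℕ} {M : Type} [TopologicalSpace M] [T2Space M] [ChartedSpace (Cm d) M]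
  [IsManifold 𝓘(ℂ, Cm d) ω M]
  {W : Type} [NormedAddCommGroup W] [InnerProductSpace ℂ W] [CompleteSpace W]

variable (d r) in
/-- the data: local primitives, the good set `G`, no constant vector in the images of `Θ` -/
structure Dat (T : M → Submodule ℂ W) (Fp : M → M → W) (G : Set M) : Prop where
  prim : Prim d Fp
  thin : IsThinSet (Cm d) Gᶜ
  nf : ∀ x ∈ G, ∃ (b : M → Cm r) (Γ : Cm r → W), NF d T Fp x b Γ
  nul : ∀ x w, (∀ᶠ y in 𝓝 x, w ∈ T y) → w = 0

variable {T : M → Submodule ℂ W} {Fp : M → M → W} {G : Set M} {ι : Type*}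
  {U : ι → W →ₗᵢ[ℂ] W} {l : Filter ι}

section
omit [T2Space M] [IsManifold 𝓘(ℂ, Cm d) ω M] [CompleteSpace W]

lemma Dat.opn (h : Dat d r T Fp G) : IsOpen G := by
  have := h.thin.1.isOpen_compl
  rwa [compl_compl] at this

lemma Dat.dense (h : Dat d r T Fp G) : Dense G := by
  have := Vale.Agent.P281.H383.Gen.dense_compl_thin h.thin
  rwa [compl_compl] at this

lemma Dat.freq (h : Dat d r T Fp G) (x : M) : ∃ᶠ y in 𝓝 x, y ∈ G :=
  mem_closure_iff_frequently.1 (h.dense x)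

lemma disp_disp {x y z : M} {c : ι → W} (h : Fp x z = Fp x y + Fp y z) :
    disp Fp U y (disp Fp U x c y) z = disp Fp U x c z := by
  funext j
  simp only [disp]
  rw [h, map_add]
  abel

lemma disp_self (hP : Prim d Fp) {x : M} {c : ι → W} : disp Fp U x c x = c := by
  funext j
  simp only [disp]
  rw [hP.zero, map_zero, zero_add, sub_zero]

end

lemma Dat.uniq (h : Dat d r T Fp G) {x : M} (hx : x ∈ G) {c c' : ι → W} (h1 : Sl Fp U l x c)
    (h2 : Sl Fp U l x c') : ∀ᶠ j in l, c j = c' j := by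
  obtain ⟨b, Γ, hn⟩ := h.nf x hx
  exact Sl.unique h.prim hn (h.nul x) h1 h2

/-- connected neighbourhoods -/
lemma exists_conn (d : ℕ) {M : Type} [TopologicalSpace M] [ChartedSpace (Cm d) M] {x : M}
    {A : Set M} (hA : A ∈ 𝓝 x) : ∃ N ⊆ A, IsOpen N ∧ x ∈ N ∧ IsPreconnected N := by
  have : LocallyConnectedSpace M := ChartedSpace.locallyConnectedSpace (Cm d) M
  obtain ⟨N, ⟨h1, h2, h3⟩, h4⟩ := (LocallyConnectedSpace.open_connected_basis x).mem_iff.1 hA
  exact ⟨N, h4, h1, h2, h3.isPreconnected⟩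

/-- **gluing** -/
theorem Dat.exists_ad (h : Dat d r T Fp G) (hx : ∀ x ∈ G, ∃ c, Sl Fp U l x c) (x : M) :
    ∃ c, ∀ᶠ y in 𝓝 x, y ∈ G → Sl Fp U l y (disp Fp U x c y) := by
  obtain ⟨N, hNA, hNo, hxN, hNc⟩ := exists_conn d (h.prim.coh x)
  obtain ⟨x₁, hx₁G, hx₁N⟩ := ((h.freq x).and_eventually (hNo.mem_nhds hxN)).exists
  obtain ⟨c₁, hc₁⟩ := hx x₁ hx₁G
  set c : ι → W := fun j => c₁ j - U j (Fp x x₁) + Fp x x₁ with hc
  have hcx : disp Fp U x c x₁ = c₁ := by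
    funext j
    simp only [disp, hc]
    abel
  have hSo : IsOpen (N \ Gᶜ) := by
    rw [sdiff_compl]
    exact hNo.inter h.opn
  refine ⟨c, ?_⟩
  have key := pc_clopen (S := N \ Gᶜ) (A := {y | Sl Fp U l y (disp Fp U x c y)})
    (pre_open hNo hNc h.thin) hSo ?_ ?_ ?_
  · filter_upwards [hNo.mem_nhds hxN] with y hy hyG
    exact key y ⟨hy, not_not.2 hyG⟩
  · intro y hy hyA
    filter_upwards [Sl.move h.prim hyA, hNA hy.1] with z hz hz'
    rw [disp_disp hz'] at hz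
    exact hz
  · intro y hy hf
    obtain ⟨c₂, hc₂⟩ := hx y (not_not.1 hy.2)
    obtain ⟨z, ⟨hzS, hz1⟩, hz2, hz3⟩ := (hf.and_eventually
      ((Sl.move h.prim hc₂).and (hNA hy.1))).exists
    have h3 := h.uniq (not_not.1 hzS.2) hz1 hz2
    refine Sl.congr hc₂ ?_
    filter_upwards [h3] with j hj
    simp only [disp] at hj ⊢
    have hz3' : Fp x z = Fp x y + Fp y z := hz3
    rw [hz3', map_add] at hj
    have e1 : U j (Fp x y) + c j - Fp x y =
        (U j (Fp x y) + U j (Fp y z) + c j - (Fp x y + Fp y z)) - U j (Fp y z) + Fp y z := by abel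
    rw [e1, hj]
    abel
  · refine ⟨x₁, ⟨hx₁N, not_not.2 hx₁G⟩, ?_⟩
    show Sl Fp U l x₁ (disp Fp U x c x₁)
    rw [hcx]
    exact hc₁

variable (d) in
/-- a global system of constants -/
structure Sys (Fp : M → M → W) (G : Set M) (U : ι → W →ₗᵢ[ℂ] W) (l : Filter ι) (C : M → ι → W) :
    Prop where
  sl : ∀ x ∈ G, Sl Fp U l x (C x)
  coh : ∀ x, ∀ᶠ x' in 𝓝 x, ∀ᶠ j in l, C x' j = disp Fp U x (C x) x' j

theorem Dat.exists_sys (h : Dat d r T Fp G) (hx : ∀ x ∈ G, ∃ c, Sl Fp U l x c) :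
    ∃ C, Sys Fp G U l C := by
  choose C hC using h.exists_ad hx
  refine ⟨C, fun x hxG => ?_, fun x => ?_⟩
  · have := (hC x).self_of_nhds hxG
    rwa [disp_self h.prim] at this
  · filter_upwards [(hC x).eventually_nhds, h.prim.coh x] with x' h1 h2
    obtain ⟨y, hyG, h3, h4, h5⟩ := ((h.freq x').and_eventually ((hC x').and (h1.and h2))).exists
    filter_upwards [h.uniq hyG (h3 hyG) (h4 hyG)] with j hj
    simp only [disp] at hj ⊢
    rw [h5, map_add] at hj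
    have e1 : C x' j = (U j (Fp x' y) + C x' j - Fp x' y) - U j (Fp x' y) + Fp x' y := by abel
    rw [e1, hj]
    abel

/-! ### bounds -/

/-- `D j ≤ A τ j` near `y` -/
def BddAt (D : M → ι → W) (τ : ι → ℝ) (l : Filter ι) (y : M) : Prop :=
  ∃ A : ℝ, ∃ N ∈ 𝓝 y, ∀ᶠ j in l, ∀ z ∈ N, ‖D z j‖ ≤ A * τ j

section
omit [T2Space M] [ChartedSpace (Cm d) M] [IsManifold 𝓘(ℂ, Cm d) ω M] [CompleteSpace W]
  [InnerProductSpace ℂ W]

lemma BddAt.ev {D : M → ι → W} {τ : ι → ℝ} {y : M} (h : BddAt D τ l y) :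
    ∀ᶠ z in 𝓝 y, BddAt D τ l z := by
  obtain ⟨A, N, hN, h⟩ := h
  filter_upwards [eventually_mem_nhds_iff.2 hN] with z hz
  exact ⟨A, N, hz, h⟩

lemma BddAt.change {D D' : M → ι → W} {τ : ι → ℝ} {y : M} (h : BddAt D τ l y) {N : Set M}
    (hN : N ∈ 𝓝 y) (hD : ∀ᶠ j in l, ∀ z ∈ N, D' z j = D z j) : BddAt D' τ l y := by
  obtain ⟨A, N', hN', h⟩ := h
  refine ⟨A, N ∩ N', inter_mem hN hN', ?_⟩
  filter_upwards [h, hD] with j h1 h2 z hz
  rw [h2 z hz.1]
  exact h1 z hz.2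

end

omit [T2Space M] [IsManifold 𝓘(ℂ, Cm d) ω M] [CompleteSpace W] in
lemma Sys.change (hP : Prim d Fp) {C : M → ι → W} (hC : Sys Fp G U l C) (x : M) :
    ∀ᶠ x' in 𝓝 x, ∃ N ∈ 𝓝 x', ∀ᶠ j in l, ∀ z ∈ N,
      disp Fp U x' (C x') z j = disp Fp U x (C x) z j := by
  filter_upwards [hC.coh x, hP.coh x] with x' h1 h2
  refine ⟨_, h2, ?_⟩
  filter_upwards [h1] with j hj z hz
  have hz' : Fp x z = Fp x x' + Fp x' z := hz
  simp only [disp] at hj ⊢
  rw [hj, hz', map_add]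
  abel

lemma _root_.Vale.Agent.P284.H212.Disc.shift {Γ : Cm r → W} {a : Cm r} {L : Cm r →L[ℂ] W}
    {R δ κ : ℝ} (hD : Disc Γ a L R δ κ) {a' : Cm r} {R' : ℝ} (h0 : 0 < R')
    (h : ball a' R' ⊆ ball a R) : Disc Γ a' L R' δ κ :=
  { hD with
    R_pos := h0
    an := fun u hu => hD.an u (h hu)
    lip := fun x hx y hy => hD.lip x (h hx) y (h hy) }

omit [T2Space M] in
/-- the displacement is controlled by the displacement in any open subset -/
theorem chord_step (hP : Prim d Fp) {x : M} {b : M → Cm r} {Γ : Cm r → W}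
    (hn : NF d T Fp x b Γ) {c : ι → W} (hs : Sl Fp U l x c) {τ : ι → ℝ}
    (hf : ∃ᶠ x' in 𝓝 x, BddAt (disp Fp U x c) τ l x') : BddAt (disp Fp U x c) τ l x := by
  obtain ⟨R, δ, κ, N, hD⟩ := hn.dn hP
  have hR := hD.disc.R_pos
  obtain ⟨ρ, hρ, N', hN', hN'N, hbN', hρR, hsl⟩ := hD.slide hs (R' := R / 4) (by positivity)
  set a := b x with ha
  set s := min ρ (R / 4) / 2 with hsdef
  have hs0 : 0 < s := by positivity
  have hsρ : 2 * s ≤ ρ := by
    have := min_le_left ρ (R / 4)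
    linarith
  have hsR : 2 * s ≤ R / 4 := by
    have := min_le_right ρ (R / 4)
    linarith
  have hcb : ContinuousAt b x := (hD.hol x hD.mem).cont
  obtain ⟨x', ⟨A, N'', hN'', hA⟩, hx'N, hx's⟩ := (hf.and_eventually
    ((show ∀ᶠ y in 𝓝 x, y ∈ N from hD.opn.mem_nhds hD.mem).and
      (hcb.eventually (ball_mem_nhds a hs0)))).exists
  set a' := b x' with ha'
  have h1 : b '' (N'' ∩ N) ∈ 𝓝 a' := by
    rw [ha', ← hD.nhd x' hx'N]
    exact image_mem_map (inter_mem hN'' (hD.opn.mem_nhds hx'N))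
  obtain ⟨t, ht, htb⟩ := Metric.mem_nhds_iff.1 h1
  set τ' := min t s / 2 with hτ'
  have hτ0 : 0 < τ' := by positivity
  have hτt : τ' < t := by
    have := min_le_left t s
    linarith
  have hτs : τ' < s := by
    have := min_le_right t s
    linarith
  have hda : dist a' a < s := hx's
  have hbR : ball a' (R / 2) ⊆ ball a R := by
    intro u hu
    rw [mem_ball] at hu ⊢
    have := dist_triangle u a' a
    linarith
  have hD' := hD.disc.shift (a' := a') (R' := R / 2) (by positivity) hbR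
  have hSρ : ball a' s ⊆ ball a ρ := by
    intro u hu
    rw [mem_ball] at hu ⊢
    have := dist_triangle u a' a
    linarith
  have hSR : ball a' s ⊆ ball a' (R / 2) := ball_subset_ball (by linarith)
  have hclu : ∀ i, a' + clu r τ' i ∈ ball a' s ∧ a' + clu r τ' i ∈ ball a' t := fun i =>
    ⟨Disc.clu_mem a' hτ0 hτs i, Disc.clu_mem a' hτ0 hτt i⟩
  refine ⟨(‖fderiv ℂ Γ a‖ + 1) * (Disc.C r (fderiv ℂ Γ a) (R / 2) κ τ' * A),
    N ∩ b ⁻¹' ball a' s, inter_mem (hD.opn.mem_nhds hD.mem)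
      (hcb (isOpen_ball.mem_nhds (by rw [mem_ball, dist_comm]; exact hda))), ?_⟩
  filter_upwards [hA, hsl] with j h2 ⟨φ, hφ⟩ y hy
  have hφ' : Slide Γ a' (R / 2) (ball a' s) (U j) (c j) φ := by
    refine ⟨fun u hu => ?_, fun u hu => hφ.eq u (hSρ hu)⟩
    have h3 := hφ.maps u (hSρ hu)
    rw [mem_ball] at h3 ⊢
    have := dist_triangle_right (φ u) a' a
    linarith
  have h3 := hD'.chord hτ0 (hτs.trans (by linarith)) hSR (fun i => (hclu i).1) hφ'
    (M := A * τ j) (fun i => by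
      obtain ⟨z, ⟨hz1, hz2⟩, hz3⟩ := htb (hclu i).2
      rw [← hφ'.eq _ (hclu i).1, ← hz3, ← hD.eq z hz2]
      exact h2 z hz1) hy.2
  have h4 : disp Fp U x c y j = Γ (φ (b y)) - Γ (b y) := by
    simp only [disp]
    rw [hD.eq y hy.1, hφ'.eq _ hy.2]
  rw [h4]
  calc ‖Γ (φ (b y)) - Γ (b y)‖ ≤ (‖fderiv ℂ Γ a‖ + 1) * ‖φ (b y) - b y‖ :=
        hD'.lips (hφ'.maps _ hy.2) (hSR hy.2)
    _ ≤ (‖fderiv ℂ Γ a‖ + 1) * (Disc.C r (fderiv ℂ Γ a) (R / 2) κ τ' * (A * τ j)) := by gcongr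
    _ = _ := by ring

end Vale.Agent.P284.H573.DK
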