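import Vale.Agent.P284.H573.DK.Lim
import Vale.Agent.P284.H573.DK.FinRep

/-!
# P284 (helper573), piece (C2) of [C]: there are no Killing fields
-/

open scoped Topology ContDiff Manifold
open Filter Set Metric

set_option linter.unusedSectionVars false

noncomputable section

namespace Vale.Agent.P284.H573.DK

open Vale.Agent.P272.K Vale.Agent.P284.H212 Vale.Agent.P284.H894.G Vale.Agent.P284.H894.V
open Vale.Agent.P281.H64.Thin (IsThinSet)

variable {d r : ℕ} {M : Type} [TopologicalSpace M] [T2Space M] [ChartedSpace (Cm d) M]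
  [IsManifold 𝓘(ℂ, Cm d) ω M]
  {W : Type} [NormedAddCommGroup W] [InnerProductSpace ℂ W] [CompleteSpace W]
variable {T : M → Submodule ℂ W} {Fp : M → M → W} {G : Set M}

variable (d) in
/-- the Killing fields -/
def VV (T : M → Submodule ℂ W) (Fp : M → M → W) (G : Set M) : Submodule ℝ (M → W) where
  carrier := {u | (∀ x, Hol d u x) ∧ (∀ x ∈ G, u x ∈ T x) ∧
    ∀ x ∈ G, ∃ N ∈ 𝓝 x, ∀ y ∈ N, ∀ z ∈ N,
      inner ℂ (u y - u x) (Fp x z) + inner ℂ (Fp x y) (u z - u x) = 0}
  add_mem' := by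
    rintro u v ⟨h1, h2, h3⟩ ⟨h1', h2', h3'⟩
    refine ⟨fun x => (h1 x).add (h1' x), fun x hx => (T x).add_mem (h2 x hx) (h2' x hx),
      fun x hx => ?_⟩
    obtain ⟨N, hN, h⟩ := h3 x hx
    obtain ⟨N', hN', h'⟩ := h3' x hx
    refine ⟨N ∩ N', inter_mem hN hN', fun y hy z hz => ?_⟩
    have e1 := h y hy.1 z hz.1
    have e2 := h' y hy.2 z hz.2
    have e3 : (u + v) y - (u + v) x = (u y - u x) + (v y - v x) := by
      simp only [Pi.add_apply]; abel
    have e4 : (u + v) z - (u + v) x = (u z - u x) + (v z - v x) := by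
      simp only [Pi.add_apply]; abel
    rw [e3, e4, inner_add_left, inner_add_right]
    linear_combination e1 + e2
  zero_mem' := ⟨fun x => hol_const 0 x, fun x _ => (T x).zero_mem, fun x _ => ⟨univ, univ_mem,
    fun y _ z _ => by simp⟩⟩
  smul_mem' := by
    rintro t u ⟨h1, h2, h3⟩
    have e0 : ∀ y, (t • u) y = (t : ℂ) • u y := fun y => by
      rw [Pi.smul_apply]
      exact (Complex.coe_smul t (u y)).symm
    refine ⟨fun x => ?_, fun x hx => ?_, fun x hx => ?_⟩
    · refine ((h1 x).smul (t : ℂ)).congr (Eventually.of_forall fun y => e0 y)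
    · rw [e0]
      exact (T x).smul_mem _ (h2 x hx)
    · obtain ⟨N, hN, h⟩ := h3 x hx
      refine ⟨N, hN, fun y hy z hz => ?_⟩
      have e1 := h y hy z hz
      rw [e0, e0, e0, ← smul_sub, ← smul_sub, inner_smul_left, inner_smul_right,
        Complex.conj_ofReal]
      linear_combination (t : ℂ) * e1

lemma real_of_rel {a u₁ u₂ f₁ f₂ : W}
    (h11 : inner ℂ (u₁ - a) f₁ + inner ℂ f₁ (u₁ - a) = 0)
    (h12 : inner ℂ (u₁ - a) f₂ + inner ℂ f₁ (u₂ - a) = 0)
    (h21 : inner ℂ (u₂ - a) f₁ + inner ℂ f₂ (u₁ - a) = 0)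
    (h22 : inner ℂ (u₂ - a) f₂ + inner ℂ f₂ (u₂ - a) = 0) :
    (inner ℂ (u₁ - u₂) (f₁ - f₂)).re = 0 := by
  have e1 : inner ℂ (u₁ - u₂) (f₁ - f₂) + inner ℂ (f₁ - f₂) (u₁ - u₂) = 0 := by
    have e2 : u₁ - u₂ = (u₁ - a) - (u₂ - a) := by abel
    rw [e2]
    simp only [inner_sub_left (𝕜 := ℂ) (u₁ - a), inner_sub_right (𝕜 := ℂ) _ (u₁ - a),
      inner_sub_right (𝕜 := ℂ) _ f₁, inner_sub_left (𝕜 := ℂ) f₁]
    linear_combination h11 - h12 - h21 + h22
  have e3 := congrArg Complex.re e1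
  rw [Complex.add_re, Complex.zero_re] at e3
  have e4 := inner_re_symm (𝕜 := ℂ) (f₁ - f₂) (u₁ - u₂)
  simp only [RCLike.re_to_complex] at e4
  linarith

/-- the relation of a Killing field extends to connected open sets -/
lemma VV.ext {u : M → W} (hu : u ∈ VV d T Fp G) {x : M} (hx : x ∈ G) {N : Set M}
    (hN : IsOpen N) (hNc : IsPreconnected N) (hxN : x ∈ N) (hNh : ∀ y ∈ N, Hol d (Fp x) y) :
    ∀ y ∈ N, ∀ z ∈ N, inner ℂ (u y - u x) (Fp x z) + inner ℂ (Fp x y) (u z - u x) = 0 := by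
  obtain ⟨h1, h2, h3⟩ := hu
  obtain ⟨N₀, hN₀, h0⟩ := h3 x hx
  have hin : ∀ (w w' : W) (y : M), y ∈ N → Hol d (fun z => inner ℂ w (Fp x z) +
      inner ℂ w' (u z - u x)) y := by
    intro w w' y hy
    exact ((hNh y hy).clm (innerSL ℂ w)).add (((h1 y).sub (hol_const (u x) y)).clm (innerSL ℂ w'))
  have step : ∀ y ∈ N₀, ∀ z ∈ N, inner ℂ (u y - u x) (Fp x z) + inner ℂ (Fp x y) (u z - u x) = 0 := by
    intro y hy z hz
    refine ident_on (d := d) (V := ℂ) hNc hN (f := fun z => inner ℂ (u y - u x) (Fp x z) +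
      inner ℂ (Fp x y) (u z - u x)) (fun w hw => hin _ _ w hw) hxN ?_ hz
    filter_upwards [hN₀] with w hw using h0 y hy w hw
  intro y hy z hz
  have h4 : inner ℂ (Fp x z) (u y - u x) + inner ℂ (u z - u x) (Fp x y) = 0 := by
    refine ident_on (d := d) (V := ℂ) hNc hN (f := fun y => inner ℂ (Fp x z) (u y - u x) +
      inner ℂ (u z - u x) (Fp x y)) (fun w hw => ?_) hxN ?_ hy
    · refine (hin (u z - u x) (Fp x z) w hw).congr (Eventually.of_forall fun w' => ?_)
      exact add_comm _ _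
    · filter_upwards [hN₀] with w hw
      have h5 := congrArg (starRingEnd ℂ) (step w hw z hz)
      rw [map_add, inner_conj_symm, inner_conj_symm, map_zero] at h5
      exact h5
  have h5 := congrArg (starRingEnd ℂ) h4
  rw [map_add, inner_conj_symm, inner_conj_symm, map_zero] at h5
  exact h5

lemma range_zero {r : ℕ} (L : Cm r →L[ℂ] W) {w : W} (hw : ∃ v, L v = w)
    (h : ∀ k : Fin r, inner ℂ (L (Pi.single k 1)) w = 0) : w = 0 := by
  obtain ⟨v, rfl⟩ := hw
  have hLv : L v = ∑ j, v j • L (Pi.single j 1) := by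
    conv_lhs => rw [pi_eq_sum_univ' v]
    rw [map_sum]
    refine Finset.sum_congr rfl fun j _ => ?_
    rw [map_smul]
  have h2 : inner ℂ (L v) (L v) = 0 := by
    conv_lhs => arg 2; rw [hLv]
    rw [sum_inner]
    refine Finset.sum_eq_zero fun j _ => ?_
    rw [inner_smul_left, h j, mul_zero]
  exact inner_self_eq_zero.1 h2

/-- the Killing fields form a finite dimensional space -/
theorem Dat.vv_fin [ConnectedSpace M] (h : Dat d r T Fp G) : FiniteDimensional ℝ (VV d T Fp G) := by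
  obtain ⟨x, hx⟩ : G.Nonempty := h.dense.nonempty
  obtain ⟨b, Γ, hn⟩ := h.nf x hx
  obtain ⟨R, δ, κ, N₁, hD⟩ := hn.dn h.prim
  obtain ⟨N, hNs, hNo, hxN, hNc⟩ := exists_conn d (x := x) (A := (N₁ ∩ G) ∩ {y | Hol d (Fp x) y})
    (inter_mem (inter_mem (hD.opn.mem_nhds hD.mem) (h.opn.mem_nhds hx)) (h.prim.hol x).ev)
  have h1 : b '' N ∈ 𝓝 (b x) := by
    rw [← hD.nhd x hD.mem]
    exact image_mem_map (hNo.mem_nhds hxN)
  obtain ⟨t, ht, htb⟩ := Metric.mem_nhds_iff.1 h1
  set τ := min t R / 2 with hτ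
  have hR := hD.disc.R_pos
  have hτ0 : 0 < τ := by positivity
  have hτt : τ < t := by
    have := min_le_left t R
    linarith
  have hτR : τ < R := by
    have := min_le_right t R
    linarith
  choose q hq hqb using fun i => htb (Disc.clu_mem (b x) hτ0 hτt i)
  let f : VV d T Fp G →ₗ[ℝ] (Option (Fin r × Bool) → Cm r) :=
    { toFun := fun u i k => inner ℂ (fderiv ℂ Γ (b (q i)) (Pi.single k 1)) (u.1 (q i))
      map_add' := fun u v => by
        funext i k
        show inner ℂ _ (u.1 (q i) + v.1 (q i)) = _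
        rw [inner_add_right]
        rfl
      map_smul' := fun s u => by
        funext i k
        show inner ℂ _ ((s • u.1) (q i)) = s • inner ℂ _ (u.1 (q i))
        rw [Pi.smul_apply, ← Complex.coe_smul, inner_smul_right]
        rfl }
  refine FiniteDimensional.of_injective f ?_
  rw [injective_iff_map_eq_zero]
  intro u hu
  have hu1 := u.2.1
  have hu2 := u.2.2.1
  have hrel := VV.ext u.2 hx hNo hNc hxN (fun y hy => (hNs hy).2)
  have hq0 : ∀ i, u.1 (q i) = 0 := by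
    intro i
    have h2 := hu2 (q i) (hNs (hq i)).1.2
    rw [hD.tan _ (hNs (hq i)).1.1] at h2
    obtain ⟨v, hv⟩ := h2
    refine range_zero (fderiv ℂ Γ (b (q i))) ⟨v, hv⟩ fun k => ?_
    exact congrFun (congrFun hu i) k
  have hz : ∀ y ∈ N, u.1 y = 0 := by
    intro y hy
    have h2 := hu2 y (hNs hy).1.2
    rw [hD.tan _ (hNs hy).1.1] at h2
    obtain ⟨v, hv⟩ := h2
    have hv' : fderiv ℂ Γ (b y) v = u.1 y := hv
    have h3 : ∀ i, (inner ℂ (u.1 y) (Γ (b y) - Γ (b x + clu r τ i))).re = 0 := by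
      intro i
      have h4 := real_of_rel (hrel y hy y hy) (hrel y hy (q i) (hq i))
        (hrel (q i) (hq i) y hy) (hrel (q i) (hq i) (q i) (hq i))
      rw [hq0 i, sub_zero, hD.eq y (hNs hy).1.1, hD.eq (q i) (hNs (hq i)).1.1, hqb i] at h4
      exact h4
    have h5 : ∀ i, (inner ℂ (u.1 y) (Γ (b x + clu r τ i) - Γ (b x))).re = 0 := by
      intro i
      have e0 : b x + clu r τ none = b x := by simp [clu]
      have e1 := h3 none
      rw [e0] at e1
      have e : Γ (b x + clu r τ i) - Γ (b x) = (Γ (b y) - Γ (b x)) -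
          (Γ (b y) - Γ (b x + clu r τ i)) := by abel
      rw [e, inner_sub_right, Complex.sub_re, e1, h3, sub_zero]
    have h6 := hD.disc.inf hτ0 hτR (hD.maps y (hNs hy).1.1) (v := v) (le_refl (0 : ℝ))
      (fun i => by rw [hv', h5 i, abs_zero])
    rw [mul_zero] at h6
    rw [← hv', norm_le_zero_iff.1 h6, map_zero]
  apply Subtype.ext
  funext y
  exact ident hu1 (x₀ := x) (by filter_upwards [hNo.mem_nhds hxN] with y hy using hz y hy) y

variable (d) in
/-- `K` acts on all data, cocompactly -/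
structure Act (K : Type) [Group K] [MulAction K M] (π : K →* (W ≃ₗᵢ[ℂ] W))
    (T : M → Submodule ℂ W) (Fp : M → M → W) (G : Set M) : Prop where
  hol : ∀ (k : K) (x : M), ContMDiffAt 𝓘(ℂ, Cm d) 𝓘(ℂ, Cm d) ω (fun y => k • y) x
  good : ∀ (k : K), ∀ x ∈ G, k • x ∈ G
  prim : ∀ (k : K) (x : M), ∀ᶠ y in 𝓝 x, Fp (k • x) (k • y) = π k (Fp x y)
  tan : ∀ (k : K) (x : M), ∀ w ∈ T x, π k w ∈ T (k • x)
  cpt : ∃ C : Set M, IsCompact C ∧ ∀ x, ∃ k : K, k • x ∈ C

variable {K : Type} [Group K] [MulAction K M] {π : K →* (W ≃ₗᵢ[ℂ] W)}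

/-- the action on fields -/
def mv (π : K →* (W ≃ₗᵢ[ℂ] W)) (k : K) (u : M → W) : M → W := fun x => π k (u (k⁻¹ • x))

lemma Act.cont (hA : Act d K π T Fp G) (k : K) : Continuous (fun x : M => k • x) :=
  continuous_iff_continuousAt.2 fun x => (hA.hol k x).continuousAt

lemma Act.mv_mem (hA : Act d K π T Fp G) (k : K) {u : M → W} (hu : u ∈ VV d T Fp G) :
    mv π k u ∈ VV d T Fp G := by
  obtain ⟨h1, h2, h3⟩ := hu
  refine ⟨fun x => ?_, fun x hx => ?_, fun x hx => ?_⟩
  · have h4 : Hol d (fun y => u (k⁻¹ • y)) x := ContMDiffAt.comp (g := u) x (h1 _) (hA.hol k⁻¹ x)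
    exact h4.clm ((π k).toContinuousLinearEquiv : W →L[ℂ] W)
  · have h4 := hA.tan k (k⁻¹ • x) _ (h2 _ (hA.good k⁻¹ x hx))
    rwa [smul_inv_smul] at h4
  · obtain ⟨N, hN, h⟩ := h3 _ (hA.good k⁻¹ x hx)
    have h4 := hA.prim k (k⁻¹ • x)
    have h5 : Tendsto (fun y : M => k⁻¹ • y) (𝓝 x) (𝓝 (k⁻¹ • x)) := (hA.cont k⁻¹).tendsto x
    refine ⟨_, h5.eventually (h4.and hN), fun y hy z hz => ?_⟩
    obtain ⟨a1, a2⟩ := hy
    obtain ⟨b1, b2⟩ := hz
    have e := h _ a2 _ b2
    rw [smul_inv_smul, smul_inv_smul] at a1 b1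
    simp only [mv]
    rw [a1, b1, ← map_sub, ← map_sub, LinearIsometryEquiv.inner_map_map,
      LinearIsometryEquiv.inner_map_map]
    exact e

lemma strictConvex (W : Type) [NormedAddCommGroup W] [InnerProductSpace ℂ W] :
    StrictConvexSpace ℝ W := by
  let := InnerProductSpace.rclikeToReal ℂ W
  have h : UniformConvexSpace W := InnerProductSpace.toUniformConvexSpace (F := W)
  infer_instance

/-- **there are no Killing fields** -/
theorem Act.vv_zero [ConnectedSpace M] (h : Dat d r T Fp G) (hA : Act d K π T Fp G)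
    (hfr : FinRep K) {u : M → W} (hu : u ∈ VV d T Fp G) : u = 0 := by
  have hfin := h.vv_fin
  obtain ⟨K', hfi, -, hK'⟩ := exists_trivial_onF hfr (mv π) (VV d T Fp G) hfin
    (fun k v hv => hA.mv_mem k hv)
    (fun k v _ v' _ => by funext x; simp only [mv, Pi.add_apply, map_add])
    (fun k c v _ => by
      funext x
      simp only [mv, Pi.smul_apply]
      rw [← Complex.coe_smul, map_smul, Complex.coe_smul])
    (fun v _ => by funext x; simp only [mv, inv_one, one_smul, map_one]; rfl)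
    (fun k k' v _ => by
      funext x
      simp only [mv, mul_inv_rev, map_mul, mul_smul]
      rfl)
  obtain ⟨C, hC, hCK⟩ := hA.cpt
  have hfinq : Finite (K ⧸ K') := Subgroup.finite_quotient_of_finiteIndex
  set C' : Set M := ⋃ s : K ⧸ K', (fun x : M => (Quotient.out s)⁻¹ • x) '' C with hC'
  have hC'c : IsCompact C' := isCompact_iUnion fun s => hC.image (hA.cont _)
  have hC'K : ∀ x, ∃ k ∈ (K' : Set K), k • x ∈ C' := by
    intro x
    obtain ⟨k, hk⟩ := hCK x
    refine ⟨(Quotient.out (k : K ⧸ K'))⁻¹ * k, ?_, ?_⟩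
    · exact QuotientGroup.eq.1 (Quotient.out_eq (k : K ⧸ K'))
    · refine mem_iUnion.2 ⟨(k : K ⧸ K'), k • x, hk, ?_⟩
      rw [mul_smul]
  have hinv : ∀ k ∈ (K' : Set K), ∀ x, ‖u (k • x)‖ = ‖u x‖ := by
    intro k hk x
    have h1 := congrFun (hK' k hk u hu) (k • x)
    simp only [mv, inv_smul_smul] at h1
    rw [← h1, LinearIsometryEquiv.norm_map]
  obtain ⟨x, hx⟩ : G.Nonempty := h.dense.nonempty
  have hsc : StrictConvexSpace ℝ W := strictConvex W
  have hconst : ∀ y, u y = u x := fun y => const_of_inv hu.1 hinv hC'c hC'K y x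
  have h0 : u x = 0 := by
    refine h.nul x (u x) ?_
    filter_upwards [h.opn.mem_nhds hx] with y hy
    rw [← hconst y]
    exact hu.2.1 y hy
  funext y
  rw [hconst y, h0]
  rfl

end Vale.Agent.P284.H573.DK
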