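import Vale.Agent.P284.H573.DK.Circ

/-!
# P284 (helper573), piece (C2) of [C]: the limit field
-/

open scoped Topology ContDiff Manifold
open Filter Set Metric

set_option linter.unusedSectionVars false

noncomputable section

namespace Vale.Agent.P284.H573.DK

open Vale.Agent.P272.K Vale.Agent.P284.H212 Vale.Agent.P299.H720

section tlu
variable {ι E F : Type*} [NormedAddCommGroup E] [NormedSpace ℂ E] [ProperSpace E]
  [NormedAddCommGroup F] [NormedSpace ℂ F] [CompleteSpace F]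

/-- locally uniform limits of locally bounded families of holomorphic maps are holomorphic -/
theorem tlu_diff {l : Filter ι} [l.NeBot] {f : ι → E → F} {g : E → F} {U : Set E}
    (hU : IsOpen U) (hf : LocBdd l f U) (hl : TendstoLocallyUniformlyOn f g l U) :
    DifferentiableOn ℂ g U := by
  intro x hx
  obtain ⟨r, hr, C, hC⟩ := hf x hx
  obtain ⟨ρ0, hρ0, hρU⟩ := Metric.isOpen_iff.1 hU x hx
  obtain ⟨ρ, hρ, hρ1, hρ2⟩ : ∃ ρ > 0, ρ < ρ0 ∧ ρ < r / 4 :=
    ⟨min ρ0 (r / 4) / 2, by positivity, by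
      have := min_le_left ρ0 (r / 4)
      have h2 : 0 < min ρ0 (r / 4) := by positivity
      linarith, by
      have := min_le_right ρ0 (r / 4)
      have h2 : 0 < min ρ0 (r / 4) := by positivity
      linarith⟩
  have hballU : closedBall x ρ ⊆ U := (closedBall_subset_ball hρ1).trans hρU
  have hballr : closedBall x ρ ⊆ ball x r := closedBall_subset_ball (by linarith)
  have hunif := (tendstoLocallyUniformlyOn_iff_forall_isCompact hU).1 hl _ hballU
    (isCompact_closedBall x ρ)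
  have huc : ∀ ε > 0, ∀ᶠ j in l, ∀ y ∈ closedBall x ρ, dist (f j y) (g y) ≤ ε := by
    intro ε hε
    filter_upwards [Metric.tendstoUniformlyOn_iff.1 hunif ε hε] with j hj y hy
    rw [dist_comm]
    exact (hj y hy).le
  have hkey : ∀ η > 0, ∀ j k, DifferentiableOn ℂ (f j) (ball x r) →
      DifferentiableOn ℂ (f k) (ball x r) → (∀ y ∈ closedBall x ρ, dist (f j y) (g y) ≤ η) →
      (∀ y ∈ closedBall x ρ, dist (f k y) (g y) ≤ η) →
      ∀ y ∈ ball x (ρ / 2), dist (fderiv ℂ (f j) y) (fderiv ℂ (f k) y) ≤ 8 * η / ρ := by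
    intro η hη j k hj hk hj2 hk2 y hy
    have hyb : ball y (ρ / 2) ⊆ ball x ρ := by
      intro w hw
      rw [mem_ball] at *
      have := dist_triangle w y x
      linarith only [this, hw, hy]
    have hyr : ball y (ρ / 2) ⊆ ball x r := (hyb.trans ball_subset_closedBall).trans hballr
    have hyy : y ∈ ball x r := hyr (mem_ball_self (by positivity))
    have hdj : DifferentiableAt ℂ (f j) y := hj.differentiableAt (isOpen_ball.mem_nhds hyy)
    have hdk : DifferentiableAt ℂ (f k) y := hk.differentiableAt (isOpen_ball.mem_nhds hyy)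
    have hb : ∀ w ∈ ball y (ρ / 2), ‖(f j - f k) w‖ ≤ 2 * η := by
      intro w hw
      have h1 := hj2 w (ball_subset_closedBall (hyb hw))
      have h2 := hk2 w (ball_subset_closedBall (hyb hw))
      have h3 := dist_triangle_right (f j w) (f k w) (g w)
      rw [Pi.sub_apply, ← dist_eq_norm]
      linarith
    have hm : MapsTo (f j - f k) (ball y (ρ / 2)) (closedBall ((f j - f k) y) (4 * η)) := by
      intro w hw
      have h1 := hb w hw
      have h2 := hb y (mem_ball_self (by positivity))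
      rw [mem_closedBall, dist_eq_norm]
      have := norm_sub_le ((f j - f k) w) ((f j - f k) y)
      linarith
    have h1 := Complex.norm_fderiv_le_div_of_mapsTo_ball
      ((hj.mono hyr).sub (hk.mono hyr)) hm (by positivity)
    have h2 : fderiv ℂ (f j - f k) y = fderiv ℂ (f j) y - fderiv ℂ (f k) y :=
      fderiv_sub hdj hdk
    rw [h2, ← dist_eq_norm] at h1
    have h3 : 4 * η / (ρ / 2) = 8 * η / ρ := by field_simp; ring
    rwa [h3] at h1
  have hgood : ∀ η > 0, ∀ᶠ j in l, DifferentiableOn ℂ (f j) (ball x r) ∧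
      ∀ y ∈ closedBall x ρ, dist (f j y) (g y) ≤ η := fun η hη =>
    (hC.mono fun j hj => hj.1).and (huc η hη)
  have hdlim : ∀ y : E, ∃ T : E →L[ℂ] F, y ∈ ball x (ρ / 2) →
      Tendsto (fun j => fderiv ℂ (f j) y) l (𝓝 T) := by
    intro y
    by_cases hy : y ∈ ball x (ρ / 2)
    · have hcau : Cauchy (map (fun j => fderiv ℂ (f j) y) l) := by
        rw [Metric.cauchy_iff]
        refine ⟨inferInstance, fun ε hε => ?_⟩
        have hη : 0 < ε * ρ / 16 := by positivity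
        refine ⟨_, image_mem_map (hgood _ hη), ?_⟩
        rintro _ ⟨j, hj, rfl⟩ _ ⟨k, hk, rfl⟩
        have h := hkey _ hη j k hj.1 hk.1 hj.2 hk.2 y hy
        have h2 : 8 * (ε * ρ / 16) / ρ = ε / 2 := by field_simp; ring
        rw [h2] at h
        linarith only [h, hε]
      obtain ⟨T, hT⟩ := CompleteSpace.complete hcau
      exact ⟨T, fun _ => hT⟩
    · exact ⟨0, fun h => absurd h hy⟩
  choose g' hg' using hdlim
  have hρ2 : 0 < ρ / 2 := by positivity
  have hunif : TendstoUniformlyOnFilter (fun j => fderiv ℂ (f j)) g' l (𝓝 x) := by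
    rw [Metric.tendstoUniformlyOnFilter_iff]
    intro ε hε
    have hη : 0 < ε * ρ / 16 := by positivity
    have h1 := Filter.Eventually.prod_mk (hgood _ hη) (show ∀ᶠ y in 𝓝 x, y ∈ ball x (ρ / 2) from
      ball_mem_nhds x hρ2)
    filter_upwards [h1] with n hn
    obtain ⟨hn1, hn2⟩ := hn
    have h2 : Tendsto (fun i => dist (fderiv ℂ (f i) n.2) (fderiv ℂ (f n.1) n.2)) l
        (𝓝 (dist (g' n.2) (fderiv ℂ (f n.1) n.2))) := (hg' _ hn2).dist tendsto_const_nhds
    have h3 : dist (g' n.2) (fderiv ℂ (f n.1) n.2) ≤ 8 * (ε * ρ / 16) / ρ := by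
      refine le_of_tendsto h2 ?_
      filter_upwards [hgood _ hη] with i hi
      exact hkey _ hη i n.1 hi.1 hn1.1 hi.2 hn1.2 _ hn2
    have h4 : 8 * (ε * ρ / 16) / ρ = ε / 2 := by field_simp; ring
    rw [h4] at h3
    linarith only [h3, hε]
  have hd : ∀ᶠ n : ι × E in l ×ˢ 𝓝 x, HasFDerivAt (f n.1) (fderiv ℂ (f n.1) n.2) n.2 := by
    have h1 := Filter.Eventually.prod_mk hC (show ∀ᶠ y in 𝓝 x, y ∈ ball x r from
      ball_mem_nhds x hr)
    filter_upwards [h1] with n hn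
    exact (hn.1.1.differentiableAt (isOpen_ball.mem_nhds hn.2)).hasFDerivAt
  refine (hasFDerivAt_of_tendstoUniformlyOnFilter (f := f) hunif hd ?_).differentiableAt.differentiableWithinAt
  filter_upwards [ball_mem_nhds x hρ] with y hy
  exact hl.tendsto_at (hballU (ball_subset_closedBall hy))

end tlu

open Vale.Agent.P281.H64.Thin (IsThinSet)

variable {d r : ℕ} {M : Type} [TopologicalSpace M] [T2Space M] [ChartedSpace (Cm d) M]
  [IsManifold 𝓘(ℂ, Cm d) ω M]
  {W : Type} [NormedAddCommGroup W] [InnerProductSpace ℂ W] [CompleteSpace W]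
variable {T : M → Submodule ℂ W} {Fp : M → M → W} {G : Set M} {ι : Type*}
  {U : ι → W →ₗᵢ[ℂ] W} {𝒰 : Ultrafilter ι}

/-- the normalised limit at a good point -/
theorem Dat.lim_good (h : Dat d r T Fp G) {x : M} (hx : x ∈ G) {c : ι → W}
    (hs : Sl Fp U (𝒰 : Filter ι) x c) {τ : ι → ℝ} (hb : BddAt (disp Fp U x c) τ (𝒰 : Filter ι) x)
    (hτ0 : ∀ᶠ j in (𝒰 : Filter ι), 0 < τ j) (hτt : Tendsto τ 𝒰 (𝓝 0)) :
    ∃ u : M → W, Hol d u x ∧ (∀ᶠ y in 𝓝 x, Tendsto (fun j => (((τ j)⁻¹ : ℝ) : ℂ) •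
      disp Fp U x c y j) 𝒰 (𝓝 (u y)) ∧ u y ∈ T y) ∧
      ∃ N ∈ 𝓝 x, ∀ y ∈ N, ∀ z ∈ N,
        inner ℂ (u y - u x) (Fp x z) + inner ℂ (Fp x y) (u z - u x) = 0 := by
  obtain ⟨b, Γ, hn⟩ := h.nf x hx
  obtain ⟨R, δ, κ, N, hD⟩ := hn.dn h.prim
  have hR := hD.disc.R_pos
  obtain ⟨ρ, hρ, N', hN', hN'N, hbN', hρR, hsl⟩ := hD.slide hs (R' := R) hR
  obtain ⟨A, N'', hN'', hA⟩ := hb
  set a := b x with ha
  have hcb : ContinuousAt b x := (hD.hol x hD.mem).cont
  have h1 : b '' (N'' ∩ N) ∈ 𝓝 a := by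
    rw [ha, ← hD.nhd x hD.mem]
    exact image_mem_map (inter_mem hN'' (hD.opn.mem_nhds hD.mem))
  obtain ⟨t, ht, htb⟩ := Metric.mem_nhds_iff.1 h1
  set τ' := min t ρ / 2 with hτ'
  have hτ'0 : 0 < τ' := by positivity
  have hτt' : τ' < t := by
    have := min_le_left t ρ
    linarith
  have hτρ : τ' < ρ := by
    have := min_le_right t ρ
    linarith
  -- the maps `φ j`
  have hch : ∀ j, ∃ φ : Cm r → Cm r, (∃ φ', Slide Γ a R (ball a ρ) (U j) (c j) φ') →
      Slide Γ a R (ball a ρ) (U j) (c j) φ := by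
    intro j
    by_cases hj : ∃ φ', Slide Γ a R (ball a ρ) (U j) (c j) φ'
    · exact ⟨hj.choose, fun _ => hj.choose_spec⟩
    · exact ⟨id, fun h => absurd h hj⟩
  choose φ hφ using hch
  have hφ' : ∀ᶠ j in (𝒰 : Filter ι), Slide Γ a R (ball a ρ) (U j) (c j) (φ j) :=
    hsl.mono fun j hj => hφ j hj
  set A' : ℝ := max A 1 with hA'
  have hA'0 : 0 < A' := lt_of_lt_of_le one_pos (le_max_right _ _)
  have hM : ∀ᶠ j in (𝒰 : Filter ι), ∀ i, ‖Γ (φ j (a + clu r τ' i)) - Γ (a + clu r τ' i)‖ ≤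
      A' * τ j := by
    filter_upwards [hφ', hA, hτ0] with j h2 h3 h4 i
    obtain ⟨z, ⟨hz1, hz2⟩, hz3⟩ := htb (Disc.clu_mem a hτ'0 hτt' i)
    rw [← h2.eq _ (Disc.clu_mem a hτ'0 hτρ i), ← hz3, ← hD.eq z hz2]
    exact (h3 z hz1).trans (mul_le_mul_of_nonneg_right (le_max_left _ _) h4.le)
  obtain ⟨ζ, hζd, -, hZ, -, hK, -⟩ := hD.disc.limit hτ'0 hτρ hρR 𝒰 hφ' (M := fun j => A' * τ j)
    (hτ0.mono fun j hj => mul_pos hA'0 hj) (by simpa using hτt.const_mul A') hM
  have hZd : DifferentiableOn ℂ (fun u => fderiv ℂ Γ u (ζ u)) (ball a ρ) := by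
    intro u hu
    have h1 : DifferentiableAt ℂ (fderiv ℂ Γ) u :=
      (hD.disc.an u (ball_subset_ball hρR hu)).fderiv.differentiableAt
    have h2 : DifferentiableAt ℂ ζ u := hζd.differentiableAt (isOpen_ball.mem_nhds hu)
    exact (h1.clm_apply h2).differentiableWithinAt
  have hZa : AnalyticAt ℂ (fun u => fderiv ℂ Γ u (ζ u)) a :=
    Vale.Agent.P268.analyticAt_of_differentiableOn isOpen_ball hZd (mem_ball_self hρ)
  refine ⟨fun y => (A' : ℂ) • fderiv ℂ Γ (b y) (ζ (b y)), ?_, ?_, N', hN', ?_⟩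
  · have h2 : Hol d (fun y => fderiv ℂ Γ (b y) (ζ (b y))) x :=
      (hD.hol x hD.mem).comp (g := fun u => fderiv ℂ Γ u (ζ u)) hZa.contDiffAt
    exact h2.smul _
  · filter_upwards [hN'] with y hy
    have hyb : b y ∈ ball a ρ := by rw [← hbN']; exact ⟨y, hy, rfl⟩
    have hyN := hN'N hy
    refine ⟨?_, ?_⟩
    · have h2 := (hZ.tendsto_at hyb).const_smul (A' : ℂ)
      refine h2.congr' ?_
      filter_upwards [hτ0] with j hj
      have hj' : (τ j : ℂ) ≠ 0 := by exact_mod_cast hj.ne'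
      have hA'' : (A' : ℂ) ≠ 0 := by exact_mod_cast hA'0.ne'
      simp only [disp]
      rw [hD.eq y hyN, smul_smul]
      congr 1
      push_cast
      field_simp
    · rw [hD.tan y hyN]
      refine ⟨(A' : ℂ) • ζ (b y), ?_⟩
      show fderiv ℂ Γ (b y) ((A' : ℂ) • ζ (b y)) = _
      rw [map_smul]
  · intro y hy z hz
    have hyb : b y ∈ ball a ρ := by rw [← hbN']; exact ⟨y, hy, rfl⟩
    have hzb : b z ∈ ball a ρ := by rw [← hbN']; exact ⟨z, hz, rfl⟩
    have hxb : b x ∈ ball a ρ := mem_ball_self hρ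
    have h2 := hK _ hyb _ hxb _ hzb _ hxb
    have h0 : Γ (b x) = 0 := by rw [← hD.eq x hD.mem, h.prim.zero]
    rw [h0, sub_zero, sub_zero, ← hD.eq y (hN'N hy), ← hD.eq z (hN'N hz)] at h2
    rw [← smul_sub, ← smul_sub, inner_smul_left, inner_smul_right, Complex.conj_ofReal]
    linear_combination (A' : ℂ) * h2

/-- the normalised limit at an arbitrary point -/
theorem Dat.lim_all (h : Dat d r T Fp G) {x : M} {c : ι → W} {τ : ι → ℝ}
    (hb : BddAt (disp Fp U x c) τ (𝒰 : Filter ι) x) (hτ0 : ∀ᶠ j in (𝒰 : Filter ι), 0 < τ j)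
    (hl : ∀ᶠ y in 𝓝 x, y ∈ G → ∃ w, Tendsto (fun j => (((τ j)⁻¹ : ℝ) : ℂ) •
      disp Fp U x c y j) 𝒰 (𝓝 w)) :
    ∃ u : M → W, Hol d u x ∧ ∀ᶠ y in 𝓝 x, Tendsto (fun j => (((τ j)⁻¹ : ℝ) : ℂ) •
      disp Fp U x c y j) 𝒰 (𝓝 (u y)) := by
  set e := chartAt (Cm d) x
  have he : e ∈ atlas (Cm d) M := chart_mem_atlas _ _
  have hx : x ∈ e.source := mem_chart_source _ _
  have hcs : Tendsto e.symm (𝓝 (e x)) (𝓝 x) := by
    have := e.continuousAt_symm (e.map_source hx)
    rwa [ContinuousAt, e.left_inv hx] at this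
  obtain ⟨A, N, hN, hA⟩ := hb
  have h1 : ∀ᶠ z in 𝓝 (e x), AnalyticAt ℂ (fun z => Fp x (e.symm z)) z :=
    ((hol_iff he hx).1 (h.prim.hol x)).eventually_analyticAt
  have h2 := hcs.eventually (hl.and (show ∀ᶠ y in 𝓝 x, y ∈ N from hN))
  obtain ⟨ρ, hρ, hρ'⟩ := Metric.eventually_nhds_iff_ball.1
    (h1.and (h2.and (e.open_target.mem_nhds (e.map_source hx))))
  set f : ι → Cm d → W := fun j z => (((τ j)⁻¹ : ℝ) : ℂ) • disp Fp U x c (e.symm z) j with hf
  have hfd : ∀ j, DifferentiableOn ℂ (f j) (ball (e x) ρ) := fun j z hz => by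
    have h3 := (hρ' z hz).1.differentiableAt
    have h4 : DifferentiableAt ℂ (fun z => U j (Fp x (e.symm z))) z :=
      ((U j).toContinuousLinearMap.differentiableAt).comp z h3
    exact (((h4.add_const _).sub h3).const_smul (((τ j)⁻¹ : ℝ) : ℂ)).differentiableWithinAt
  have hfb : ∀ᶠ j in (𝒰 : Filter ι), ∀ z ∈ ball (e x) ρ, ‖f j z‖ ≤ A := by
    filter_upwards [hA, hτ0] with j hj h0 z hz
    have h3 := hj _ (hρ' z hz).2.1.2
    simp only [hf]
    rw [norm_smul, Complex.norm_real, Real.norm_of_nonneg (by positivity), inv_mul_le_iff₀ h0,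
      mul_comm]
    exact h3
  have hLB : LocBdd (𝒰 : Filter ι) f (ball (e x) ρ) := by
    intro z hz
    obtain ⟨s, hs, hsz⟩ := Metric.isOpen_iff.1 isOpen_ball z hz
    refine ⟨s, hs, A, ?_⟩
    filter_upwards [hfb] with j hj
    exact ⟨(hfd j).mono hsz, fun y hy => hj y (hsz hy)⟩
  have hρ4 : 0 < ρ / 4 := by positivity
  have hsub4 : ball (e x) (ρ / 4) ⊆ ball (e x) ρ := ball_subset_ball (by linarith)
  -- pointwise convergence
  have hpt : ∀ z ∈ ball (e x) (ρ / 4), ∃ w, Tendsto (fun j => f j z) 𝒰 (𝓝 w) := by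
    intro z hz
    have hcau : Cauchy (map (fun j => f j z) (𝒰 : Filter ι)) := by
      rw [Metric.cauchy_iff]
      refine ⟨inferInstance, fun ε hε => ?_⟩
      have hz' := hρ' z (hsub4 hz)
      -- a good point near `z`
      set η : ℝ := ε * ρ / (16 * (|A| + 1)) with hη
      have hη0 : 0 < η := by positivity
      have h3 : e.source ∩ e ⁻¹' (ball z η ∩ ball (e x) (ρ / 4)) ∈ 𝓝 (e.symm z) := by
        refine inter_mem (e.open_source.mem_nhds (e.map_target hz'.2.2))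
          (e.continuousAt (e.map_target hz'.2.2) ?_)
        rw [e.right_inv hz'.2.2]
        exact inter_mem (ball_mem_nhds _ hη0) (isOpen_ball.mem_nhds hz)
      obtain ⟨y, hyG, hy1, hy2, hy3⟩ := ((h.freq (e.symm z)).and_eventually h3).exists
      have hy4 := (hρ' (e y) (hsub4 hy3)).2.1.1
      rw [e.left_inv hy1] at hy4
      obtain ⟨w, hw⟩ := hy4 hyG
      have hw' : Tendsto (fun j => f j (e y)) 𝒰 (𝓝 w) := by
        simp only [hf]
        rw [e.left_inv hy1]
        exact hw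
      have h5 : ∀ᶠ j in (𝒰 : Filter ι), dist (f j z) w < ε / 2 := by
        filter_upwards [hfb, (tendsto_iff_dist_tendsto_zero.1 hw').eventually
          (gt_mem_nhds (show 0 < ε / 4 by positivity))] with j a1 a2
        have a3 := lip_of_bdd hρ (hfd j) a1 (y := e y) (z := z) hy3 hz
        have a4 : dist z (e y) < η := by rw [dist_comm]; exact hy2
        have a5 : 4 * A / ρ * dist z (e y) ≤ ε / 4 := by
          have a6 : 4 * A / ρ ≤ 4 * (|A| + 1) / ρ := by
            have := le_abs_self A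
            gcongr
            linarith
          calc 4 * A / ρ * dist z (e y) ≤ 4 * (|A| + 1) / ρ * η := by gcongr
            _ = ε / 4 := by rw [hη]; field_simp; norm_num
        have a7 := dist_triangle (f j z) (f j (e y)) w
        linarith
      refine ⟨_, image_mem_map h5, ?_⟩
      rintro _ ⟨j, hj, rfl⟩ _ ⟨k, hk, rfl⟩
      have hj' : dist (f j z) w < ε / 2 := hj
      have hk' : dist (f k z) w < ε / 2 := hk
      have := dist_triangle_right (f j z) (f k z) w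
      linarith
    exact CompleteSpace.complete hcau
  choose! g hg using hpt
  have htlu : TendstoLocallyUniformlyOn f g 𝒰 (ball (e x) (ρ / 4)) := by
    refine tlu_of_ptwise (fun z hz => hLB z (hsub4 hz)) fun z hz => ?_
    filter_upwards [isOpen_ball.mem_nhds hz] with w hw using hg w hw
  have hgd : DifferentiableOn ℂ g (ball (e x) (ρ / 4)) :=
    tlu_diff isOpen_ball (fun z hz => hLB z (hsub4 hz)) htlu
  have hga : AnalyticAt ℂ g (e x) :=
    Vale.Agent.P268.analyticAt_of_differentiableOn isOpen_ball hgd (mem_ball_self hρ4)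
  refine ⟨fun y => g (e y), ?_, ?_⟩
  · rw [hol_iff he hx]
    refine hga.congr ?_
    filter_upwards [e.open_target.mem_nhds (e.map_source hx)] with z hz
    show g z = g (e (e.symm z))
    rw [e.right_inv hz]
  · filter_upwards [e.open_source.mem_nhds hx, e.continuousAt hx (ball_mem_nhds _ hρ4)] with y h3 h4
    have := hg _ h4
    simp only [hf] at this
    rwa [e.left_inv h3] at this

/-- **the limit field** -/
theorem Dat.exists_field (h : Dat d r T Fp G) {C : M → ι → W} (hC : Sys Fp G U (𝒰 : Filter ι) C)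
    {τ : ι → ℝ} (hτ0 : ∀ᶠ j in (𝒰 : Filter ι), 0 < τ j) (hτt : Tendsto τ 𝒰 (𝓝 0))
    (hb : ∀ x, BddAt (disp Fp U x (C x)) τ (𝒰 : Filter ι) x) :
    ∃ u : M → W, (∀ x, Hol d u x) ∧ (∀ x ∈ G, u x ∈ T x) ∧
      (∀ x ∈ G, ∃ N ∈ 𝓝 x, ∀ y ∈ N, ∀ z ∈ N,
        inner ℂ (u y - u x) (Fp x z) + inner ℂ (Fp x y) (u z - u x) = 0) ∧
      ∀ x, Tendsto (fun j => (((τ j)⁻¹ : ℝ) : ℂ) • C x j) 𝒰 (𝓝 (u x)) := by
  have hgood := fun x (hx : x ∈ G) => h.lim_good hx (hC.sl x hx) (hb x) hτ0 hτt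
  -- transfer of limits
  have htr : ∀ x, ∀ᶠ y in 𝓝 x, ∀ w, Tendsto (fun j => (((τ j)⁻¹ : ℝ) : ℂ) • C y j) 𝒰 (𝓝 w) ↔
      Tendsto (fun j => (((τ j)⁻¹ : ℝ) : ℂ) • disp Fp U x (C x) y j) 𝒰 (𝓝 w) := by
    intro x
    filter_upwards [hC.coh x] with y hy w
    refine tendsto_congr' ?_
    filter_upwards [hy] with j hj
    rw [hj]
  have hpt : ∀ x ∈ G, ∃ w, Tendsto (fun j => (((τ j)⁻¹ : ℝ) : ℂ) • C x j) 𝒰 (𝓝 w) := by
    intro x hx
    obtain ⟨u, -, h2, -⟩ := hgood x hx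
    exact ⟨u x, ((htr x).self_of_nhds _).2 h2.self_of_nhds.1⟩
  have hall : ∀ x, ∃ u : M → W, Hol d u x ∧ ∀ᶠ y in 𝓝 x, Tendsto (fun j => (((τ j)⁻¹ : ℝ) : ℂ) •
      disp Fp U x (C x) y j) 𝒰 (𝓝 (u y)) := by
    intro x
    refine h.lim_all (hb x) hτ0 ?_
    filter_upwards [htr x] with y hy hyG
    obtain ⟨w, hw⟩ := hpt y hyG
    exact ⟨w, (hy w).1 hw⟩
  choose v hv1 hv2 using hall
  have hu : ∀ x, Tendsto (fun j => (((τ j)⁻¹ : ℝ) : ℂ) • C x j) 𝒰 (𝓝 (v x x)) := fun x =>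
    ((htr x).self_of_nhds _).2 (hv2 x).self_of_nhds
  refine ⟨fun x => v x x, fun x => ?_, fun x hx => ?_, fun x hx => ?_, hu⟩
  · refine (hv1 x).congr ?_
    filter_upwards [hv2 x, htr x] with y h1 h2
    exact tendsto_nhds_unique (hu y) ((h2 _).2 h1)
  · obtain ⟨u, -, h2, -⟩ := hgood x hx
    have h3 : v x x = u x :=
      tendsto_nhds_unique (hu x) (((htr x).self_of_nhds _).2 h2.self_of_nhds.1)
    show v x x ∈ T x
    rw [h3]
    exact h2.self_of_nhds.2
  · obtain ⟨u, -, h2, N, hN, h4⟩ := hgood x hx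
    have h3 : ∀ᶠ y in 𝓝 x, v y y = u y := by
      filter_upwards [h2, htr x] with y h5 h6
      exact tendsto_nhds_unique (hu y) ((h6 _).2 h5.1)
    refine ⟨N ∩ {y | v y y = u y}, inter_mem hN h3, fun y hy z hz => ?_⟩
    have e1 : v y y = u y := hy.2
    have e2 : v z z = u z := hz.2
    have e3 : v x x = u x := h3.self_of_nhds
    show inner ℂ (v y y - v x x) (Fp x z) + inner ℂ (Fp x y) (v z z - v x x) = 0
    rw [e1, e2, e3]
    exact h4 y hy.1 z hz.1

end Vale.Agent.P284.H573.DK
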