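import Vale.Agent.P284.H573.DK.Bas

/-!
# P284 (helper573), piece (C2) of [C]: local primitives, slidings

`Fp x y` is the local primitive `∫_x^y Θ` (`y` near `x`) of a holomorphic 1-form with values in a Hilbert
space `W`.  `Sl Fp U l x c`: near `x` the isometries `F ↦ U j F + c j` slide the sheet in itself, and tend
to the identity.
-/

open scoped Topology ContDiff Manifold
open Filter Set Metric

noncomputable section

namespace Vale.Agent.P284.H573.DK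

open Vale.Agent.P272.K Vale.Agent.P284.H212

section
variable {d r : ℕ} {M : Type} [TopologicalSpace M] [ChartedSpace (Cm d) M]
  {W : Type} [NormedAddCommGroup W] [InnerProductSpace ℂ W]

variable (d) in
/-- `Fp x y = ∫_x^y Θ` for `y` near `x` -/
structure Prim (Fp : M → M → W) : Prop where
  hol : ∀ x, Hol d (Fp x) x
  zero : ∀ x, Fp x x = 0
  coh : ∀ x, ∀ᶠ x' in 𝓝 x, ∀ᶠ y in 𝓝 x', Fp x y = Fp x x' + Fp x' y

variable (d) in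
/-- Normal form near `x`: `Fp x = Γ ∘ b`, `b` is a submersion to `ℂʳ` and `Γ` an immersion; `T y` is the
image of the derivative at `y`. -/
structure NF (T : M → Submodule ℂ W) (Fp : M → M → W) (x : M) (b : M → Cm r) (Γ : Cm r → W) :
    Prop where
  hol : Hol d b x
  opn : ∀ᶠ y in 𝓝 x, map b (𝓝 y) = 𝓝 (b y)
  an : AnalyticAt ℂ Γ (b x)
  inj : Function.Injective (fderiv ℂ Γ (b x))
  eq : ∀ᶠ y in 𝓝 x, Fp x y = Γ (b y)
  tan : ∀ᶠ y in 𝓝 x, T y = LinearMap.range (fderiv ℂ Γ (b y) : Cm r →ₗ[ℂ] W)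

/-- near `x` the isometries `F ↦ U j F + c j` slide the sheet in itself, `x' ↦ x''`, and `x'' → x'`
locally uniformly -/
def Sl {ι : Type*} (Fp : M → M → W) (U : ι → W →ₗᵢ[ℂ] W) (l : Filter ι) (x : M) (c : ι → W) : Prop :=
  ∃ N ∈ 𝓝 x, ∀ x₁ ∈ N, ∀ B ∈ 𝓝 x₁, ∃ N₁ ∈ 𝓝 x₁, ∀ᶠ j in l, ∀ x' ∈ N₁, ∃ x'' ∈ B,
    Fp x x'' = U j (Fp x x') + c j

/-- the displacement at `y` -/
def disp {ι : Type*} (Fp : M → M → W) (U : ι → W →ₗᵢ[ℂ] W) (x : M) (c : ι → W) (y : M) : ι → W :=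
  fun j => U j (Fp x y) + c j - Fp x y

variable {ι : Type*} {Fp : M → M → W} {U : ι → W →ₗᵢ[ℂ] W} {l : Filter ι} {x : M} {c c' : ι → W}

omit [ChartedSpace (Cm d) M] in
lemma Sl.congr (h : Sl Fp U l x c) (hc : ∀ᶠ j in l, c' j = c j) : Sl Fp U l x c' := by
  obtain ⟨N, hN, h⟩ := h
  refine ⟨N, hN, fun x₁ hx₁ B hB => ?_⟩
  obtain ⟨N₁, hN₁, h'⟩ := h x₁ hx₁ B hB
  refine ⟨N₁, hN₁, ?_⟩
  filter_upwards [h', hc] with j h1 h2 x' hx'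
  rw [h2]
  exact h1 x' hx'

omit [ChartedSpace (Cm d) M] in
lemma Sl.mono {l' : Filter ι} (h : Sl Fp U l x c) (hl : l' ≤ l) : Sl Fp U l' x c := by
  obtain ⟨N, hN, h⟩ := h
  refine ⟨N, hN, fun x₁ hx₁ B hB => ?_⟩
  obtain ⟨N₁, hN₁, h'⟩ := h x₁ hx₁ B hB
  exact ⟨N₁, hN₁, hl h'⟩

/-- transport of a sliding -/
lemma Sl.move (hP : Prim d Fp) (h : Sl Fp U l x c) :
    ∀ᶠ x' in 𝓝 x, Sl Fp U l x' (disp Fp U x c x') := by
  obtain ⟨N, hN, h⟩ := h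
  have hN' : ∀ᶠ x' in 𝓝 x, N ∈ 𝓝 x' := eventually_mem_nhds_iff.2 hN
  filter_upwards [hN', hP.coh x] with x' hx' hcoh
  obtain ⟨A, hA, hAo, hxA⟩ := _root_.eventually_nhds_iff.1 hcoh
  refine ⟨N ∩ A, inter_mem hx' (hAo.mem_nhds hxA), fun x₁ hx₁ B hB => ?_⟩
  obtain ⟨N₁, hN₁, h'⟩ := h x₁ hx₁.1 (B ∩ A) (inter_mem hB (hAo.mem_nhds hx₁.2))
  refine ⟨N₁ ∩ A, inter_mem hN₁ (hAo.mem_nhds hx₁.2), ?_⟩
  filter_upwards [h'] with j hj y hy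
  obtain ⟨x'', hx'', h2⟩ := hj y hy.1
  refine ⟨x'', hx''.1, ?_⟩
  rw [hA _ hx''.2, hA _ hy.2, map_add] at h2
  have h3 : Fp x' x'' = U j (Fp x x') + U j (Fp x' y) + c j - Fp x x' := by
    rw [← h2]; abel
  rw [h3]
  simp only [disp]
  abel

/-- the displacements tend to `0` -/
lemma Sl.tendsto [IsManifold 𝓘(ℂ, Cm d) ω M] [CompleteSpace W] (hP : Prim d Fp)
    (h : Sl Fp U l x c) : ∀ᶠ y in 𝓝 x, Tendsto (disp Fp U x c y) l (𝓝 0) := by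
  obtain ⟨N, hN, h⟩ := h
  filter_upwards [hN, (hP.hol x).cont_ev] with y hy hcy
  have h1 : Tendsto (fun j => U j (Fp x y) + c j) l (𝓝 (Fp x y)) := by
    intro B hB
    obtain ⟨N₁, hN₁, h'⟩ := h y hy _ (hcy hB)
    rw [mem_map]
    filter_upwards [h'] with j hj
    obtain ⟨x'', hx'', h2⟩ := hj y (mem_of_mem_nhds hN₁)
    show U j (Fp x y) + c j ∈ B
    rw [← h2]
    exact hx''
  have h2 := h1.sub (tendsto_const_nhds (x := Fp x y))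
  rw [sub_self] at h2
  exact h2

end

/-! ### the disc at a point with a normal form -/

section disc
variable {d r : ℕ} {M : Type} [TopologicalSpace M] [ChartedSpace (Cm d) M]
  [IsManifold 𝓘(ℂ, Cm d) ω M]
  {W : Type} [NormedAddCommGroup W] [InnerProductSpace ℂ W] [CompleteSpace W]

/-- the disc and a good neighbourhood `N` of `x` -/
structure DN (T : M → Submodule ℂ W) (Fp : M → M → W) (x : M) (b : M → Cm r) (Γ : Cm r → W)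
    (R δ κ : ℝ) (N : Set M) : Prop where
  disc : Disc Γ (b x) (fderiv ℂ Γ (b x)) R δ κ
  opn : IsOpen N
  mem : x ∈ N
  hol : ∀ y ∈ N, Hol d b y
  maps : ∀ y ∈ N, b y ∈ ball (b x) R
  nhd : ∀ y ∈ N, map b (𝓝 y) = 𝓝 (b y)
  eq : ∀ y ∈ N, Fp x y = Γ (b y)
  tan : ∀ y ∈ N, T y = LinearMap.range (fderiv ℂ Γ (b y) : Cm r →ₗ[ℂ] W)
  coh : ∀ y ∈ N, ∀ᶠ z in 𝓝 y, Fp x z = Fp x y + Fp y z

theorem NF.dn {T : M → Submodule ℂ W} {Fp : M → M → W} {x : M} {b : M → Cm r} {Γ : Cm r → W}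
    (hP : Prim d Fp) (h : NF d T Fp x b Γ) : ∃ R δ κ N, DN (d := d) T Fp x b Γ R δ κ N := by
  obtain ⟨R, δ, κ, hD⟩ := exists_disc h.an h.inj
  have h1 : ∀ᶠ y in 𝓝 x, b y ∈ ball (b x) R := h.hol.cont (ball_mem_nhds _ hD.R_pos)
  obtain ⟨N, hN, hNo, hxN⟩ := _root_.eventually_nhds_iff.1
    (h1.and (h.hol.ev.and (h.opn.and (h.eq.and (h.tan.and (hP.coh x))))))
  exact ⟨R, δ, κ, N, hD, hNo, hxN, fun y hy => (hN y hy).2.1, fun y hy => (hN y hy).1,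
    fun y hy => (hN y hy).2.2.1, fun y hy => (hN y hy).2.2.2.1, fun y hy => (hN y hy).2.2.2.2.1,
    fun y hy => (hN y hy).2.2.2.2.2⟩

variable {T : M → Submodule ℂ W} {Fp : M → M → W} {x : M} {b : M → Cm r} {Γ : Cm r → W}
  {R δ κ : ℝ} {N : Set M}

omit [IsManifold 𝓘(ℂ, Cm d) ω M] [CompleteSpace W] in
/-- a sliding in the leaf space -/
lemma DN.slide (h : DN (d := d) T Fp x b Γ R δ κ N) {ι : Type*} {U : ι → W →ₗᵢ[ℂ] W}
    {l : Filter ι} {c : ι → W} (hs : Sl Fp U l x c) {R' : ℝ} (hR' : 0 < R') :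
    ∃ ρ > 0, ∃ N' ∈ 𝓝 x, N' ⊆ N ∧ b '' N' = ball (b x) ρ ∧ ρ ≤ R ∧
      ∀ᶠ j in l, ∃ φ, Slide Γ (b x) R' (ball (b x) ρ) (U j) (c j) φ := by
  obtain ⟨N₀, hN₀, h0⟩ := hs
  have hc : ContinuousAt b x := (h.hol x h.mem).cont
  have hB : N ∩ b ⁻¹' ball (b x) R' ∈ 𝓝 x :=
    inter_mem (h.opn.mem_nhds h.mem) (hc (ball_mem_nhds _ hR'))
  obtain ⟨N₁, hN₁, h1⟩ := h0 x (mem_of_mem_nhds hN₀) _ hB
  have h2 : b '' (N₁ ∩ N) ∈ 𝓝 (b x) := by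
    rw [← h.nhd x h.mem]
    exact image_mem_map (inter_mem hN₁ (h.opn.mem_nhds h.mem))
  obtain ⟨ρ, hρ, hρs⟩ := Metric.mem_nhds_iff.1 h2
  have hρ' : 0 < min ρ R := lt_min hρ h.disc.R_pos
  refine ⟨min ρ R, hρ', (N₁ ∩ N) ∩ b ⁻¹' ball (b x) (min ρ R),
    inter_mem (inter_mem hN₁ (h.opn.mem_nhds h.mem)) (hc (ball_mem_nhds _ hρ')),
    fun y hy => hy.1.2, ?_, min_le_right _ _, ?_⟩
  · ext u
    constructor
    · rintro ⟨y, hy, rfl⟩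
      exact hy.2
    · intro hu
      obtain ⟨y, hy, rfl⟩ := hρs (ball_subset_ball (min_le_left _ _) hu)
      exact ⟨y, ⟨hy, hu⟩, rfl⟩
  · filter_upwards [h1] with j hj
    refine exists_slide fun u hu => ?_
    obtain ⟨y, hy, rfl⟩ := hρs (ball_subset_ball (min_le_left _ _) hu)
    obtain ⟨x'', hx'', h3⟩ := hj y hy.1
    rw [h.eq _ hx''.1, h.eq _ hy.2] at h3
    exact ⟨b x'', hx''.2, h3⟩

end disc

end Vale.Agent.P284.H573.DK
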