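import Vale.Agent.P284.H573.DK.Sl

/-!
# P284 (helper573), piece (C2) of [C]: the constants of a sliding are unique
-/

open scoped Topology ContDiff Manifold
open Filter Set Metric

noncomputable section

namespace Vale.Agent.P284.H573.DK

open Vale.Agent.P272.K Vale.Agent.P284.H212

section
variable {r : ℕ} {W : Type} [NormedAddCommGroup W] [InnerProductSpace ℂ W] {ι : Type*}
  {Γ : Cm r → W} {a : Cm r} {L : Cm r →L[ℂ] W} {R δ κ : ℝ}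

lemma lim_dir (hD : Disc Γ a L R δ κ) {𝒰 : Ultrafilter ι} {u : Cm r} (hu : u ∈ ball a R)
    {z z' : ι → Cm r} (hz : ∀ᶠ j in (𝒰 : Filter ι), z j ∈ ball a R)
    (hz' : ∀ᶠ j in (𝒰 : Filter ι), z' j ∈ ball a R)
    (htz : Tendsto z 𝒰 (𝓝 u)) (htz' : Tendsto z' 𝒰 (𝓝 u)) {η : ι → W}
    (hη : ∀ᶠ j in (𝒰 : Filter ι), Γ (z' j) - Γ (z j) = η j ∧ η j ≠ 0) :
    ∃ ζ, Tendsto (fun j => ((‖η j‖⁻¹ : ℝ) : ℂ) • η j) 𝒰 (𝓝 (fderiv ℂ Γ u ζ)) := by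
  have hκ := hD.κ_pos
  have hb : ∀ᶠ j in (𝒰 : Filter ι), ‖z' j - z j‖ ≤ 2 / κ * ‖η j‖ := by
    filter_upwards [hz, hz', hη] with j h1 h2 h3
    rw [← h3.1]
    exact hD.anti h2 h1
  have hbb : ∀ᶠ j in (𝒰 : Filter ι), ((‖η j‖⁻¹ : ℝ) : ℂ) • (z' j - z j) ∈ closedBall (0 : Cm r) (2 / κ) := by
    filter_upwards [hb, hη] with j h1 h3
    have h4 : 0 < ‖η j‖ := norm_pos_iff.2 h3.2
    rw [mem_closedBall_zero_iff, norm_smul, Complex.norm_real, Real.norm_of_nonneg (by positivity),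
      inv_mul_le_iff₀ h4, mul_comm]
    exact h1
  obtain ⟨ζ, -, hζ⟩ := (isCompact_closedBall (0 : Cm r) (2 / κ)).ultrafilter_le_nhds
    (𝒰.map (fun j => ((‖η j‖⁻¹ : ℝ) : ℂ) • (z' j - z j))) (by
      rw [le_principal_iff]
      exact hbb)
  have hζ' : Tendsto (fun j => ((‖η j‖⁻¹ : ℝ) : ℂ) • (z' j - z j)) 𝒰 (𝓝 ζ) := hζ
  refine ⟨ζ, ?_⟩
  have hs : HasStrictFDerivAt Γ (fderiv ℂ Γ u) u := (hD.an u hu).hasStrictFDerivAt
  have ho := hs.isLittleO.comp_tendsto (htz'.prodMk_nhds htz)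
  have h1 : Tendsto (fun j => ((‖η j‖⁻¹ : ℝ) : ℂ) • (Γ (z' j) - Γ (z j) -
      fderiv ℂ Γ u (z' j - z j))) 𝒰 (𝓝 0) := by
    rw [Metric.tendsto_nhds]
    intro ε hε
    have h2 := ho.def (c := ε * κ / 4) (by positivity)
    filter_upwards [h2, hb, hη] with j a1 a2 a3
    have h4 : 0 < ‖η j‖ := norm_pos_iff.2 a3.2
    rw [dist_zero_right, norm_smul, Complex.norm_real, Real.norm_of_nonneg (by positivity)]
    simp only [Function.comp_apply] at a1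
    calc ‖η j‖⁻¹ * ‖Γ (z' j) - Γ (z j) - fderiv ℂ Γ u (z' j - z j)‖
        ≤ ‖η j‖⁻¹ * (ε * κ / 4 * ‖z' j - z j‖) := by gcongr
      _ ≤ ‖η j‖⁻¹ * (ε * κ / 4 * (2 / κ * ‖η j‖)) := by gcongr
      _ = ε / 2 := by field_simp; norm_num
      _ < ε := by linarith
  have h2 : Tendsto (fun j => fderiv ℂ Γ u (((‖η j‖⁻¹ : ℝ) : ℂ) • (z' j - z j))) 𝒰
      (𝓝 (fderiv ℂ Γ u ζ)) := ((fderiv ℂ Γ u).continuous.tendsto ζ).comp hζ'
  have h3 := h1.add h2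
  rw [zero_add] at h3
  refine h3.congr' ?_
  filter_upwards [hη] with j a3
  rw [map_smul, ← smul_add, sub_add_cancel, a3.1]

end

section
variable {d r : ℕ} {M : Type} [TopologicalSpace M] [ChartedSpace (Cm d) M]
  [IsManifold 𝓘(ℂ, Cm d) ω M]
  {W : Type} [NormedAddCommGroup W] [InnerProductSpace ℂ W] [CompleteSpace W]
  {T : M → Submodule ℂ W} {Fp : M → M → W} {x : M} {b : M → Cm r} {Γ : Cm r → W}

/-- near-identity slidings at `y`: the leaf displacement tends to `0` -/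
lemma DN.pts {R δ κ : ℝ} {N : Set M} (h : DN (d := d) T Fp x b Γ R δ κ N) (hP : Prim d Fp)
    {ι : Type*} {U : ι → W →ₗᵢ[ℂ] W} {l : Filter ι} {c : ι → W} (hs : Sl Fp U l x c) :
    ∀ᶠ y in 𝓝 x, ∃ z : ι → Cm r, (∀ᶠ j in l, z j ∈ ball (b x) R ∧
      Γ (z j) = U j (Fp x y) + c j) ∧ Tendsto z l (𝓝 (b y)) := by
  have ht := hs.tendsto hP
  obtain ⟨N₀, hN₀, h0⟩ := hs
  filter_upwards [hN₀, h.opn.mem_nhds h.mem, ht] with y hy hyN hyt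
  obtain ⟨N₁, hN₁, h1⟩ := h0 y hy N (h.opn.mem_nhds hyN)
  have h2 : ∀ j, ∃ z : Cm r, (∃ x'' ∈ N, Fp x x'' = U j (Fp x y) + c j) →
      z ∈ ball (b x) R ∧ Γ z = U j (Fp x y) + c j := by
    intro j
    by_cases hj : ∃ x'' ∈ N, Fp x x'' = U j (Fp x y) + c j
    · obtain ⟨x'', hx'', h3⟩ := hj
      exact ⟨b x'', fun _ => ⟨h.maps _ hx'', by rw [← h.eq _ hx'', h3]⟩⟩
    · exact ⟨0, fun h => absurd h hj⟩
  choose z hz using h2
  have h3 : ∀ᶠ j in l, z j ∈ ball (b x) R ∧ Γ (z j) = U j (Fp x y) + c j := by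
    filter_upwards [h1] with j hj
    exact hz j (hj y (mem_of_mem_nhds hN₁))
  refine ⟨z, h3, ?_⟩
  rw [tendsto_iff_norm_sub_tendsto_zero]
  have h4 : Tendsto (fun j => 2 / κ * ‖disp Fp U x c y j‖) l (𝓝 0) := by
    simpa using hyt.norm.const_mul (2 / κ)
  refine squeeze_zero' (Eventually.of_forall fun _ => norm_nonneg _) ?_ h4
  filter_upwards [h3] with j hj
  have h5 := h.disc.anti hj.1 (h.maps y hyN)
  rw [hj.2, ← h.eq y hyN] at h5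
  exact h5

/-- **uniqueness** -/
theorem Sl.unique (hP : Prim d Fp) (hn : NF d T Fp x b Γ)
    (hnul : ∀ w, (∀ᶠ y in 𝓝 x, w ∈ T y) → w = 0) {ι : Type*} {U : ι → W →ₗᵢ[ℂ] W} {l : Filter ι}
    {c c' : ι → W} (h : Sl Fp U l x c) (h' : Sl Fp U l x c') : ∀ᶠ j in l, c j = c' j := by
  by_contra hcon
  have hne : (l ⊓ 𝓟 {j | c j ≠ c' j}).NeBot := frequently_iff_neBot.1 (not_eventually.1 hcon)
  set 𝒰 : Ultrafilter ι := Ultrafilter.of (l ⊓ 𝓟 {j | c j ≠ c' j}) with h𝒰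
  have h𝒰l : (𝒰 : Filter ι) ≤ l := (Ultrafilter.of_le _).trans inf_le_left
  have h𝒰n : ∀ᶠ j in (𝒰 : Filter ι), c j ≠ c' j :=
    ((Ultrafilter.of_le _).trans inf_le_right) (mem_principal_self _)
  obtain ⟨R, δ, κ, N, hD⟩ := hn.dn hP
  have h1 := hD.pts hP (h.mono h𝒰l)
  have h2 := hD.pts hP (h'.mono h𝒰l)
  have key : ∀ᶠ y in 𝓝 x, ∃ ζ, Tendsto (fun j => ((‖c' j - c j‖⁻¹ : ℝ) : ℂ) • (c' j - c j)) 𝒰
      (𝓝 (fderiv ℂ Γ (b y) ζ)) := by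
    filter_upwards [h1, h2, hD.opn.mem_nhds hD.mem] with y ⟨z, hz, hzt⟩ ⟨z', hz', hzt'⟩ hyN
    refine lim_dir hD.disc (hD.maps y hyN) (hz.mono fun j hj => hj.1) (hz'.mono fun j hj => hj.1)
      hzt hzt' ?_
    filter_upwards [hz, hz', h𝒰n] with j a1 a2 a3
    refine ⟨?_, fun h0 => a3 (sub_eq_zero.1 h0).symm⟩
    rw [a1.2, a2.2]
    abel
  obtain ⟨ζ₀, hζ₀⟩ := key.self_of_nhds
  set w := fderiv ℂ Γ (b x) ζ₀ with hw
  have h3 : ∀ᶠ y in 𝓝 x, w ∈ T y := by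
    filter_upwards [key, hD.opn.mem_nhds hD.mem] with y ⟨ζ, hζ⟩ hyN
    rw [hD.tan y hyN, tendsto_nhds_unique hζ₀ hζ]
    exact ⟨ζ, rfl⟩
  have h4 := hnul w h3
  have h5 : Tendsto (fun j => ‖((‖c' j - c j‖⁻¹ : ℝ) : ℂ) • (c' j - c j)‖) 𝒰 (𝓝 ‖w‖) := hζ₀.norm
  have h6 : Tendsto (fun j => ‖((‖c' j - c j‖⁻¹ : ℝ) : ℂ) • (c' j - c j)‖) 𝒰 (𝓝 1) := by
    refine (tendsto_const_nhds (x := (1 : ℝ))).congr' ?_
    filter_upwards [h𝒰n] with j hj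
    have h7 : 0 < ‖c' j - c j‖ := norm_pos_iff.2 fun h0 => hj (sub_eq_zero.1 h0).symm
    rw [norm_smul, Complex.norm_real, Real.norm_of_nonneg (by positivity), inv_mul_cancel₀ h7.ne']
  have h7 := tendsto_nhds_unique h5 h6
  rw [h4, norm_zero] at h7
  exact zero_ne_one h7

end

end Vale.Agent.P284.H573.DK
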